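import Vale.Agent.P246.Q24.H1

/-!
# Unimodular pairs over definite quaternion orders with a ramified prime
-/

set_option linter.all false

namespace Vale.Agent.P246.Cyc

open Vale.Agent.P246.Q24

/-- arithmetic data of a norm-Euclidean ring with involution and a ramified element `lam` -/
structure QuatData2 (R : Type) [CommRing R] [Invo R] where
  N : R → ℕ
  mul : ∀ x y, N (x * y) = N x * N y
  zero : ∀ x, N x = 0 ↔ x = 0
  conj' : ∀ x : R, N (conj x) = N x
  euclid : ∀ α n, n ≠ 0 → ∃ q, N (α - q * n) < N n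
  nz : ∀ x : Dbl R true, Dbl.nrd x = 0 → x = 0
  lam : R
  lam_conj : ∃ ε, conj lam = ε * lam
  lam_N : 1 < N lam
  lam_inv : ∀ s, ∃ c c', c * (s * conj s + 1) + c' * lam = 1
  key : ∀ w, w ≠ 0 → (¬ ∃ v, w = lam * v) →
    (∃ (g : Matrix (Fin 2) (Fin 2) (Dbl R true)) (e : R), IsUnit e ∧ Dt g = w * e) →
    IsUnit w ∨ ∃ η, η ≠ 0 ∧ ∀ α, ∃ q,
      N ((α - q * w) * conj (α - q * w) + η * conj η) < N w * N w

namespace QuatData2

variable {R : Type} [CommRing R] [Invo R] (D : QuatData2 R)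

include D

theorem N_one [Nontrivial R] : D.N 1 = 1 := by
  have h := D.mul 1 1
  rw [mul_one] at h
  have h0 : D.N 1 ≠ 0 := fun h0 => one_ne_zero ((D.zero 1).1 h0)
  exact (Nat.mul_eq_left h0).1 h.symm

theorem isDomain : NoZeroDivisors R where
  eq_zero_or_eq_zero_of_mul_eq_zero := by
    intro x y h
    rw [← D.zero, D.mul, mul_eq_zero] at h
    exact h.imp (D.zero x).1 (D.zero y).1

/-- norm of the reduced norm -/
def nu (x : Dbl R true) : ℕ := D.N (Dbl.nrd x)

theorem nu_mul (x y : Dbl R true) : D.nu (x * y) = D.nu x * D.nu y := by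
  rw [nu, Dbl.nrd_mul, D.mul, nu, nu]

theorem nu_zero (x : Dbl R true) : D.nu x = 0 ↔ x = 0 := by
  rw [nu, D.zero]
  constructor
  · exact D.nz x
  · rintro rfl
    simp [Dbl.nrd]

theorem nu_C (r : R) : D.nu (Dbl.C r) = D.N r * D.N r := by
  rw [nu, Dbl.nrd_C, D.mul, D.conj']

theorem mul_eq_zero' {x y : Dbl R true} (h : x * y = 0) : x = 0 ∨ y = 0 := by
  rw [← D.nu_zero, D.nu_mul, mul_eq_zero, D.nu_zero, D.nu_zero] at h
  exact h

theorem TR [Nontrivial R] : TR (Dbl R true) := by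
  classical
  intro a b c d h
  have hdom := D.isDomain
  have mz := fun {x y : Dbl R true} => D.mul_eq_zero' (x := x) (y := y)
  have h10 : (1 : Dbl R true) ≠ 0 := by
    intro h
    exact one_ne_zero (congrArg Dbl.fst h)
  -- the case `b = 0`
  by_cases hb : b = 0
  · subst hb
    rw [mul_zero, add_zero] at h
    have hac : a * c = 1 := by
      have h1 : (a * c - 1) * a = 0 := by rw [sub_mul, mul_assoc, h, mul_one, one_mul, sub_self]
      rcases mz h1 with h2 | h2
      · exact sub_eq_zero.1 h2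
      · rw [h2, mul_zero] at h
        exact absurd h.symm h10
    refine ⟨!![c, 0; 0, 1], !![a, 0; 0, 1], ?_, ?_, ?_, ?_⟩
    · apply Matrix.ext
      intro i j
      fin_cases i <;> fin_cases j <;> simp [Matrix.mul_apply, Fin.sum_univ_two, h]
    · apply Matrix.ext
      intro i j
      fin_cases i <;> fin_cases j <;> simp [Matrix.mul_apply, Fin.sum_univ_two, hac]
    · simpa using h
    · simp
  -- `K`: pairs `(u, v)` with `u a + v b = 0`
  have hv0 : ∀ u v, u * a + v * b = 0 → u = 0 → v = 0 := by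
    intro u v huv hu
    rw [hu, zero_mul, zero_add] at huv
    exact (mz huv).resolve_right hb
  have hne : ∃ n, ∃ u v, u * a + v * b = 0 ∧ u ≠ 0 ∧ D.nu u = n := by
    by_cases ha : a = 0
    · exact ⟨_, 1, 0, by rw [ha, mul_zero, zero_mul, add_zero], h10, rfl⟩
    · refine ⟨_, Dbl.C (Dbl.nrd b) * Dbl.star a, -(Dbl.C (Dbl.nrd a) * Dbl.star b), ?_, ?_, rfl⟩
      · rw [neg_mul, mul_assoc, mul_assoc, Dbl.star_mul_self, Dbl.star_mul_self, ← map_mul,
          ← map_mul, mul_comm, add_neg_cancel]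
      · intro h0
        rcases mz h0 with h1 | h1
        · exact hb (D.nz b (congrArg Dbl.fst h1))
        · apply ha
          apply D.nz a
          have : Dbl.C (Dbl.nrd a) = (0 : Dbl R true) := by
            rw [← Dbl.star_mul_self, h1, zero_mul]
          exact congrArg Dbl.fst this
  obtain ⟨u0, v0, hk0, hu0, hn0⟩ := Nat.find_spec hne
  have hmin : ∀ u v, u * a + v * b = 0 → D.nu u < D.nu u0 → u = 0 := by
    intro u v huv hlt
    by_contra hu
    rw [hn0] at hlt
    exact Nat.find_min hne hlt ⟨u, v, huv, hu, rfl⟩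
  have hn00 : Dbl.nrd u0 ≠ 0 := fun h0 => hu0 (D.nz u0 h0)
  have hpos : 0 < D.nu u0 := Nat.pos_of_ne_zero (fun h0 => hu0 ((D.nu_zero u0).1 h0))
  -- Claim A
  have hA : ∀ u v, u * a + v * b = 0 → (u * Dbl.star u0).snd = 0 →
      ∃ q : R, u = Dbl.C q * u0 ∧ v = Dbl.C q * v0 := by
    intro u v huv hs
    obtain ⟨q, hq⟩ := D.euclid (u * Dbl.star u0).fst (Dbl.nrd u0) hn00
    have hk : (u - Dbl.C q * u0) * a + (v - Dbl.C q * v0) * b = 0 := by
      have : (u - Dbl.C q * u0) * a + (v - Dbl.C q * v0) * b =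
        (u * a + v * b) - Dbl.C q * (u0 * a + v0 * b) := by noncomm_ring
      rw [this, huv, hk0, mul_zero, sub_zero]
    have h1 : (u - Dbl.C q * u0) * Dbl.star u0 =
        Dbl.C ((u * Dbl.star u0).fst - q * Dbl.nrd u0) := by
      rw [sub_mul, mul_assoc, Dbl.mul_star, ← map_mul]
      ext
      · simp
      · simp [hs]
    have h2 := congrArg D.nu h1
    have h3 : D.nu (Dbl.star u0) = D.N (Dbl.nrd u0) := by
      rw [nu]
      congr 1
      simp [Dbl.nrd, Dbl.star]
      ring
    rw [nu_mul, nu_C, h3] at h2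
    have h4 : u - Dbl.C q * u0 = 0 := by
      apply hmin _ _ hk
      have h5 : 0 < D.N (Dbl.nrd u0) := hpos
      have h6 : D.nu (u - Dbl.C q * u0) * D.N (Dbl.nrd u0) <
          D.N (Dbl.nrd u0) * D.N (Dbl.nrd u0) := by
        rw [h2]
        exact Nat.mul_lt_mul_of_lt_of_le hq hq.le h5
      exact lt_of_mul_lt_mul_right h6 (Nat.zero_le _)
    exact ⟨q, sub_eq_zero.1 h4, sub_eq_zero.1 (hv0 _ _ hk h4)⟩
  -- the second generator
  have hy : ((⟨0, 1⟩ : Dbl R true) * u0 * Dbl.star u0).snd = Dbl.nrd u0 := by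
    rw [mul_assoc, Dbl.mul_star]
    simp [Dbl.conj_nrd]
  have hne2 : ∃ n, ∃ u v, u * a + v * b = 0 ∧ (u * Dbl.star u0).snd ≠ 0 ∧
      D.N (u * Dbl.star u0).snd = n := by
    refine ⟨_, (⟨0, 1⟩ : Dbl R true) * u0, (⟨0, 1⟩ : Dbl R true) * v0, ?_, ?_, rfl⟩
    · rw [mul_assoc, mul_assoc, ← mul_add, hk0, mul_zero]
    · rw [hy]; exact hn00
  obtain ⟨u1, v1, hk1, hu1, hn1⟩ := Nat.find_spec hne2
  have hmin1 : ∀ u v, u * a + v * b = 0 →
      D.N (u * Dbl.star u0).snd < D.N (u1 * Dbl.star u0).snd → (u * Dbl.star u0).snd = 0 := by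
    intro u v huv hlt
    by_contra hu
    rw [hn1] at hlt
    exact Nat.find_min hne2 hlt ⟨u, v, huv, hu, rfl⟩
  have hB : ∀ u v, u * a + v * b = 0 → ∃ q q' : R, u = Dbl.C q * u1 + Dbl.C q' * u0 ∧
      v = Dbl.C q * v1 + Dbl.C q' * v0 := by
    intro u v huv
    obtain ⟨q, hq⟩ := D.euclid (u * Dbl.star u0).snd (u1 * Dbl.star u0).snd hu1
    have hk : (u - Dbl.C q * u1) * a + (v - Dbl.C q * v1) * b = 0 := by
      have : (u - Dbl.C q * u1) * a + (v - Dbl.C q * v1) * b =
        (u * a + v * b) - Dbl.C q * (u1 * a + v1 * b) := by noncomm_ring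
      rw [this, huv, hk1, mul_zero, sub_zero]
    have h1 : ((u - Dbl.C q * u1) * Dbl.star u0).snd =
        (u * Dbl.star u0).snd - q * (u1 * Dbl.star u0).snd := by
      rw [sub_mul, mul_assoc]
      simp
    have h2 := hmin1 _ _ hk (by rw [h1]; exact hq)
    obtain ⟨q', h3, h4⟩ := hA _ _ hk h2
    exact ⟨q, q', by rw [← h3]; abel, by rw [← h4]; abel⟩
  obtain ⟨w, s', hw1, hw2⟩ := hB ((⟨0, 1⟩ : Dbl R true) * u0) ((⟨0, 1⟩ : Dbl R true) * v0)
    (by rw [mul_assoc, mul_assoc, ← mul_add, hk0, mul_zero])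
  have hw0 : w ≠ 0 := by
    intro h0
    rw [h0, map_zero, zero_mul, zero_add] at hw1
    have h1 := hy
    rw [hw1, mul_assoc, Dbl.mul_star, ← map_mul] at h1
    exact hn00 h1.symm
  -- Claim D
  have key : ∀ x y : Dbl R true, ∃ q q' : R,
      x = (x * a + y * b) * c + (Dbl.C q' * u0 + Dbl.C q * u1) ∧
      y = (x * a + y * b) * d + (Dbl.C q' * v0 + Dbl.C q * v1) := by
    intro x y
    have h1 : (x - (x * a + y * b) * c) * a + (y - (x * a + y * b) * d) * b = 0 := by
      have : (x - (x * a + y * b) * c) * a + (y - (x * a + y * b) * d) * b =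
        (x * a + y * b) - (x * a + y * b) * (c * a + d * b) := by noncomm_ring
      rw [this, h, mul_one, sub_self]
    obtain ⟨q, q', h2, h3⟩ := hB _ _ h1
    refine ⟨q, q', ?_, ?_⟩
    · rw [add_comm (Dbl.C q' * u0), ← h2]; abel
    · rw [add_comm (Dbl.C q' * v0), ← h3]; abel
  obtain ⟨p1, p1', k11, k12⟩ := key 1 0
  obtain ⟨p2, p2', k21, k22⟩ := key ⟨0, 1⟩ 0
  obtain ⟨p3, p3', k31, k32⟩ := key 0 1
  obtain ⟨p4, p4', k41, k42⟩ := key 0 ⟨0, 1⟩
  simp only [one_mul, zero_mul, add_zero, zero_add] at k11 k12 k21 k22 k31 k32 k41 k42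
  let M : Matrix (Fin 2 ⊕ Fin 2) (Fin 2 ⊕ Fin 2) R := Matrix.fromBlocks (Dbl.rho c) (Dbl.rho d)
    !![u0.fst, u0.snd; u1.fst, u1.snd] !![v0.fst, v0.snd; v1.fst, v1.snd]
  let N' : Matrix (Fin 2 ⊕ Fin 2) (Fin 2 ⊕ Fin 2) R := Matrix.fromBlocks (Dbl.rho a)
    !![p1', p1; p2', p2] (Dbl.rho b) !![p3', p3; p4', p4]
  have f11 := congrArg Dbl.fst k11
  have f12 := congrArg Dbl.fst k12
  have f21 := congrArg Dbl.fst k21
  have f22 := congrArg Dbl.fst k22
  have f31 := congrArg Dbl.fst k31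
  have f32 := congrArg Dbl.fst k32
  have f41 := congrArg Dbl.fst k41
  have f42 := congrArg Dbl.fst k42
  have g11 := congrArg Dbl.snd k11
  have g12 := congrArg Dbl.snd k12
  have g21 := congrArg Dbl.snd k21
  have g22 := congrArg Dbl.snd k22
  have g31 := congrArg Dbl.snd k31
  have g32 := congrArg Dbl.snd k32
  have g41 := congrArg Dbl.snd k41
  have g42 := congrArg Dbl.snd k42
  simp at f11 f12 f21 f22 f31 f32 f41 f42 g11 g12 g21 g22 g31 g32 g41 g42
  have hNM : N' * M = 1 := by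
    change Matrix.fromBlocks _ _ _ _ * Matrix.fromBlocks _ _ _ _ = 1
    rw [Matrix.fromBlocks_multiply, ← Matrix.fromBlocks_one]
    congr 1
    · apply Matrix.ext
      intro i j
      fin_cases i <;> fin_cases j <;> simp [Dbl.rho, Matrix.mul_apply, Fin.sum_univ_two]
      · linear_combination -f11
      · linear_combination -g11
      · linear_combination -f21
      · linear_combination -g21
    · apply Matrix.ext
      intro i j
      fin_cases i <;> fin_cases j <;> simp [Dbl.rho, Matrix.mul_apply, Fin.sum_univ_two]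
      · linear_combination -f12
      · linear_combination -g12
      · linear_combination -f22
      · linear_combination -g22
    · apply Matrix.ext
      intro i j
      fin_cases i <;> fin_cases j <;> simp [Dbl.rho, Matrix.mul_apply, Fin.sum_univ_two]
      · linear_combination -f31
      · linear_combination -g31
      · linear_combination -f41
      · linear_combination -g41
    · apply Matrix.ext
      intro i j
      fin_cases i <;> fin_cases j <;> simp [Dbl.rho, Matrix.mul_apply, Fin.sum_univ_two]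
      · linear_combination -f32
      · linear_combination -g32
      · linear_combination -f42
      · linear_combination -g42
  have hDt : Dt !![c, d; u0, v0] = w * M.det := by
    have h1 : big !![c, d; u0, v0] = Matrix.fromBlocks 1 0 0 !![1, 0; s', w] * M := by
      change Matrix.fromBlocks _ _ _ _ = _ * Matrix.fromBlocks _ _ _ _
      rw [Matrix.fromBlocks_multiply]
      have a1 := congrArg Dbl.fst hw1
      have a2 := congrArg Dbl.snd hw1
      have a3 := congrArg Dbl.fst hw2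
      have a4 := congrArg Dbl.snd hw2
      simp at a1 a2 a3 a4
      congr 1
      · simp
      · simp
      · apply Matrix.ext
        intro i j
        fin_cases i <;> fin_cases j <;> simp [Dbl.rho, Matrix.mul_apply, Fin.sum_univ_two]
        · linear_combination a1
        · linear_combination a2
      · apply Matrix.ext
        intro i j
        fin_cases i <;> fin_cases j <;> simp [Dbl.rho, Matrix.mul_apply, Fin.sum_univ_two]
        · linear_combination a3
        · linear_combination a4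
    rw [Dt, h1, Matrix.det_mul, Matrix.det_fromBlocks_zero₂₁, Matrix.det_fin_two]
    simp
  have hMu : IsUnit M.det := by
    have h1 := congrArg Matrix.det hNM
    rw [Matrix.det_mul, Matrix.det_one, mul_comm] at h1
    exact IsUnit.of_mul_eq_one _ h1
  have hNu : ∀ x : R, IsUnit x → D.N x = 1 := by
    intro x hx
    obtain ⟨y, hy⟩ := hx.exists_right_inv
    have h1 := congrArg D.N hy
    rw [D.mul, D.N_one] at h1
    exact Nat.eq_one_of_mul_eq_one_right h1
  -- `lam` does not divide `w`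
  have hL : ¬ ∃ v, w = D.lam * v := by
    rintro ⟨w1, hw1'⟩
    obtain ⟨ε, hε⟩ := D.lam_conj
    obtain ⟨c, c', hc⟩ := D.lam_inv s'
    have ey : ∀ x z : Dbl R true, (⟨0, 1⟩ : Dbl R true) * x = Dbl.C w * z + Dbl.C s' * x →
        x = Dbl.C D.lam * (Dbl.C c * ((⟨-conj s', -ε⟩ : Dbl R true) * (Dbl.C w1 * z)) +
          Dbl.C c' * x) := by
      intro x z hxz
      have h1 : (⟨-s', 1⟩ : Dbl R true) * x = Dbl.C D.lam * (Dbl.C w1 * z) := by
        have : (⟨-s', 1⟩ : Dbl R true) = ⟨0, 1⟩ - Dbl.C s' := by ext <;> simp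
        rw [this, sub_mul, hxz, hw1', map_mul, mul_assoc]
        abel
      have h2 : (⟨-conj s', -1⟩ : Dbl R true) * ((⟨-s', 1⟩ : Dbl R true) * x) =
          Dbl.C (s' * conj s' + 1) * x := by
        rw [← mul_assoc]
        congr 1
        ext <;> simp <;> ring
      have hq : (⟨-conj s', -1⟩ : Dbl R true) * Dbl.C D.lam =
          Dbl.C D.lam * (⟨-conj s', -ε⟩ : Dbl R true) := by
        ext
        · simp; ring
        · simp [hε]; ring
      have h3 : (⟨-conj s', -1⟩ : Dbl R true) * (Dbl.C D.lam * (Dbl.C w1 * z)) =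
          Dbl.C D.lam * ((⟨-conj s', -ε⟩ : Dbl R true) * (Dbl.C w1 * z)) := by
        rw [← mul_assoc, hq, mul_assoc]
      rw [h1, h3] at h2
      have h4 : x = Dbl.C (c * (s' * conj s' + 1) + c' * D.lam) * x := by
        rw [hc, map_one, one_mul]
      calc x = Dbl.C (c * (s' * conj s' + 1) + c' * D.lam) * x := h4
        _ = Dbl.C c * (Dbl.C (s' * conj s' + 1) * x) + Dbl.C (c' * D.lam) * x := by
            rw [map_add, add_mul, map_mul (Dbl.C) c, mul_assoc]
        _ = Dbl.C c * (Dbl.C D.lam * ((⟨-conj s', -ε⟩ : Dbl R true) * (Dbl.C w1 * z))) +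
            Dbl.C (c' * D.lam) * x := by rw [← h2]
        _ = _ := by
            rw [mul_add, ← mul_assoc, ← map_mul, mul_comm c, map_mul, mul_assoc, ← mul_assoc
              (Dbl.C D.lam) (Dbl.C c'), ← map_mul, mul_comm c']
    obtain ⟨u', hu'⟩ : ∃ u', u' = Dbl.C c * ((⟨-conj s', -ε⟩ : Dbl R true) * (Dbl.C w1 * u1)) +
          Dbl.C c' * u0 := ⟨_, rfl⟩
    obtain ⟨v', hv'⟩ : ∃ v', v' = Dbl.C c * ((⟨-conj s', -ε⟩ : Dbl R true) * (Dbl.C w1 * v1)) +
          Dbl.C c' * v0 := ⟨_, rfl⟩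
    have eu := ey u0 u1 hw1
    have ev := ey v0 v1 hw2
    rw [← hu'] at eu
    rw [← hv'] at ev
    have hlam : D.lam ≠ 0 := by
      intro h0
      have h1 := D.lam_N
      rw [(D.zero D.lam).2 h0] at h1
      exact absurd h1 (by norm_num)
    have hk' : u' * a + v' * b = 0 := by
      have h1 : Dbl.C D.lam * (u' * a + v' * b) = 0 := by
        rw [mul_add, ← mul_assoc, ← mul_assoc, ← eu, ← ev, hk0]
      rcases mz h1 with h2 | h2
      · exact absurd (congrArg Dbl.fst h2) hlam
      · exact h2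
    have h5 : D.nu u' < D.nu u0 := by
      rw [eu, nu_mul, nu_C]
      have hu'0 : u' ≠ 0 := by
        intro h0
        rw [h0, mul_zero] at eu
        exact hu0 eu
      have h6 : 0 < D.nu u' := Nat.pos_of_ne_zero (fun h0 => hu'0 ((D.nu_zero u').1 h0))
      have h7 := D.lam_N
      have h8 : 1 < D.N D.lam * D.N D.lam := by nlinarith
      nlinarith
    have h6 := hmin u' v' hk' h5
    rw [h6, mul_zero] at eu
    exact hu0 eu
  have hwu : IsUnit w := by
    obtain ⟨M', hM'⟩ := hMu.exists_left_inv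
    rcases D.key w hw0 hL ⟨_, M.det, hMu, hDt⟩ with h1 | ⟨η, hη, hP⟩
    · exact h1
    · exfalso
      obtain ⟨q, hq⟩ := hP (-(η * s'))
      have hk : (Dbl.C (-q) * u0 + Dbl.C η * u1) * a + (Dbl.C (-q) * v0 + Dbl.C η * v1) * b = 0 := by
        have : (Dbl.C (-q) * u0 + Dbl.C η * u1) * a + (Dbl.C (-q) * v0 + Dbl.C η * v1) * b =
          Dbl.C (-q) * (u0 * a + v0 * b) + Dbl.C η * (u1 * a + v1 * b) := by noncomm_ring
        rw [this, hk0, hk1, mul_zero, mul_zero, add_zero]
      have e1 : Dbl.C w * (Dbl.C (-q) * u0 + Dbl.C η * u1) =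
          (⟨-(η * s') - q * w, η⟩ : Dbl R true) * u0 := by
        have e2 : Dbl.C w * u1 = (⟨0, 1⟩ : Dbl R true) * u0 - Dbl.C s' * u0 := by
          rw [hw1]; abel
        have e3 : Dbl.C w * (Dbl.C (-q) * u0 + Dbl.C η * u1) =
            Dbl.C (w * -q) * u0 + Dbl.C η * (Dbl.C w * u1) := by
          rw [mul_add, ← mul_assoc, ← mul_assoc, ← mul_assoc, ← map_mul, ← map_mul, ← map_mul,
            mul_comm w η]
        have e4 : (⟨-(η * s') - q * w, η⟩ : Dbl R true) =
            Dbl.C (w * -q) + Dbl.C η * (⟨0, 1⟩ - Dbl.C s') := by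
          ext <;> simp <;> ring
        rw [e3, e2, e4]
        noncomm_ring
      have e2 := congrArg D.nu e1
      rw [nu_mul, nu_mul, nu_C] at e2
      have e3 : D.nu (⟨-(η * s') - q * w, η⟩ : Dbl R true) < D.N w * D.N w := by
        refine lt_of_eq_of_lt ?_ hq
        rw [nu]
        congr 1
        simp [Dbl.nrd]
      have hNw : 0 < D.N w := Nat.pos_of_ne_zero (fun h0 => hw0 ((D.zero w).1 h0))
      have e4 : D.nu (Dbl.C (-q) * u0 + Dbl.C η * u1) < D.nu u0 := by
        have h6 : D.N w * D.N w * D.nu (Dbl.C (-q) * u0 + Dbl.C η * u1) <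
            D.N w * D.N w * D.nu u0 := by
          rw [e2]
          exact Nat.mul_lt_mul_of_pos_right e3 hpos
        exact lt_of_mul_lt_mul_left h6 (Nat.zero_le _)
      have e5 := hmin _ _ hk e4
      rw [e5, mul_zero] at e1
      rcases mz e1.symm with h1 | h1
      · exact hη (congrArg Dbl.snd h1)
      · exact hu0 h1
  obtain ⟨w', hw'⟩ := hwu.exists_left_inv
  refine TR_of_ker h hk0 ?_ ?_
  · intro x y hxy
    obtain ⟨q, q', h1, h2⟩ := hB x y hxy
    have e1 : u1 = Dbl.C w' * (⟨0, 1⟩ - Dbl.C s') * u0 := by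
      rw [mul_assoc, sub_mul, hw1, add_sub_cancel_right, ← mul_assoc, ← map_mul, hw', map_one,
        one_mul]
    have e2 : v1 = Dbl.C w' * (⟨0, 1⟩ - Dbl.C s') * v0 := by
      rw [mul_assoc, sub_mul, hw2, add_sub_cancel_right, ← mul_assoc, ← map_mul, hw', map_one,
        one_mul]
    refine ⟨Dbl.C q * (Dbl.C w' * (⟨0, 1⟩ - Dbl.C s')) + Dbl.C q', ?_, ?_⟩
    · rw [h1, add_mul, mul_assoc, ← e1]
    · rw [h2, add_mul, mul_assoc, ← e2]
  · intro t h1 _
    exact (mz h1).resolve_right hu0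

end QuatData2

end Vale.Agent.P246.Cyc
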