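import Vale.Agent.P246.Cyc.Bez
import Vale.Agent.P246.Cyc.QD

/-!
# The relative norm `|z|²` of `ℤ[ζ]` over the cubic ring
-/

set_option linter.all false

namespace Vale.Agent.P246.Cyc

open Vale.Agent.P246.Q24

namespace Zt

variable {K : Type} [CommRing K] [Eta K]

/-- the relative norm -/
def ab (z : Zt K) : K := z.re * z.re + eta * (z.re * z.im) + z.im * z.im

theorem mul_conj (z : Zt K) : z * conj z = C (ab z) := by
  ext <;> simp [ab] <;> ring

theorem ab_mul (x y : Zt K) : ab (x * y) = ab x * ab y := by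
  simp [ab]; ring

theorem ab_conj (x : Zt K) : ab (conj x) = ab x := by
  simp [ab]; ring

theorem ab_C (a : K) : ab (C a) = a * a := by
  simp [ab]

theorem conj_C (a : K) : conj (C a : Zt K) = C a := by
  ext <;> simp

theorem C_inj {a b : K} (h : (C a : Zt K) = C b) : a = b := congrArg Zt.re h

theorem ab_zero : ab (0 : Zt K) = 0 := by simp [ab]
theorem ab_one : ab (1 : Zt K) = 1 := by simp [ab]

end Zt

/-! ### bounds for the conjugates of `η` -/

theorem eta_bds (i : Bool) : (e1 i eta ^ 2 < 4 ∧ e2 i eta ^ 2 < 4) ∧ e3 i eta ^ 2 < 4 := by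
  have h1 : e1 i eta = th i := by rw [e1_apply]; simp
  have h2 : e2 i eta = th i * th i - 2 := by
    change e1 i (Cub.sig eta) = _
    rw [e1_apply]; simp; ring
  have h3 : e3 i eta = (th i * th i - 2) * (th i * th i - 2) - 2 := by
    have h4 : (Cub.sig (Cub.sig eta) : Cub ℤ i) = Cub.sig eta * Cub.sig eta - 2 := by
      cases i <;> decide
    change e1 i (Cub.sig (Cub.sig eta)) = _
    rw [h4, map_sub, map_mul]
    have h5 : e1 i 2 = 2 := map_ofNat _ 2
    rw [h5]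
    change e2 i eta * e2 i eta - 2 = _
    rw [h2]
  have h4 := th_lo i
  have h5 := th_hi i
  rw [h1, h2, h3]
  generalize th i = t at *
  cases i
  · simp only [cond_false] at h4 h5
    have a1 : (1246 / 1000 : ℝ) * (1246 / 1000) ≤ t * t := mul_self_le_mul_self (by norm_num) h4
    have a2 : t * t ≤ (1247 / 1000 : ℝ) * (1247 / 1000) := mul_self_le_mul_self (by linarith) h5
    refine ⟨⟨by nlinarith, by nlinarith⟩, ?_⟩
    have b1 : (4 / 10 : ℝ) * (4 / 10) ≤ (2 - t * t) * (2 - t * t) :=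
      mul_self_le_mul_self (by norm_num) (by nlinarith)
    have b2 : (2 - t * t) * (2 - t * t) ≤ (5 / 10 : ℝ) * (5 / 10) :=
      mul_self_le_mul_self (by nlinarith) (by nlinarith)
    nlinarith
  · simp only [cond_true] at h4 h5
    have a1 : (1532 / 1000 : ℝ) * (1532 / 1000) ≤ t * t := mul_self_le_mul_self (by norm_num) h4
    have a2 : t * t ≤ (1533 / 1000 : ℝ) * (1533 / 1000) := mul_self_le_mul_self (by linarith) h5
    refine ⟨⟨by nlinarith, by nlinarith⟩, ?_⟩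
    have b1 : (3 / 10 : ℝ) * (3 / 10) ≤ (t * t - 2) * (t * t - 2) :=
      mul_self_le_mul_self (by norm_num) (by nlinarith)
    have b2 : (t * t - 2) * (t * t - 2) ≤ (4 / 10 : ℝ) * (4 / 10) :=
      mul_self_le_mul_self (by nlinarith) (by nlinarith)
    nlinarith

theorem pos_form {s a b : ℝ} (hs : s ^ 2 < 4) : 0 ≤ a * a + s * (a * b) + b * b := by
  nlinarith [mul_self_nonneg (2 * a + s * b), mul_self_nonneg b,
    mul_nonneg (show (0 : ℝ) ≤ 4 - s ^ 2 by linarith) (mul_self_nonneg b)]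

theorem pos_form_zero {s a b : ℝ} (hs : s ^ 2 < 4) (h : a * a + s * (a * b) + b * b = 0) :
    a = 0 ∧ b = 0 := by
  have h1 : (2 * a + s * b) * (2 * a + s * b) + (4 - s ^ 2) * (b * b) = 0 := by
    linear_combination 4 * h
  have h2 : 0 ≤ (4 - s ^ 2) * (b * b) := mul_nonneg (by linarith) (mul_self_nonneg b)
  have h3 := mul_self_nonneg (2 * a + s * b)
  have h4 : (4 - s ^ 2) * (b * b) = 0 := by linarith
  have h5 : b = 0 := by
    rcases mul_eq_zero.1 h4 with h | h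
    · exact absurd h (by linarith)
    · exact mul_self_eq_zero.1 h
  subst h5
  refine ⟨?_, rfl⟩
  have h6 : a * a = 0 := by linarith
  exact mul_self_eq_zero.1 h6

theorem TN_ab {i : Bool} (z : Zt (Cub ℤ i)) : TN (Zt.ab z) := by
  obtain ⟨⟨h1, h2⟩, h3⟩ := eta_bds i
  refine ⟨?_, ?_, ?_⟩
  · rw [Zt.ab, map_add, map_add, map_mul, map_mul, map_mul, map_mul]
    exact pos_form h1
  · rw [Zt.ab, map_add, map_add, map_mul, map_mul, map_mul, map_mul]
    exact pos_form h2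
  · rw [Zt.ab, map_add, map_add, map_mul, map_mul, map_mul, map_mul]
    exact pos_form h3

theorem e1_inj {i : Bool} {x : Cub ℤ i} (h : e1 i x = 0) : x = 0 := by
  apply nm_eq_zero.1
  have h1 := e_nm x
  rw [h, zero_mul, zero_mul] at h1
  exact_mod_cast h1.symm

theorem ab_eq_zero {i : Bool} {z : Zt (Cub ℤ i)} (h : Zt.ab z = 0) : z = 0 := by
  obtain ⟨⟨h1, h2⟩, h3⟩ := eta_bds i
  have h4 := congrArg (e1 i) h
  rw [Zt.ab, map_add, map_add, map_mul, map_mul, map_mul, map_mul, map_zero] at h4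
  obtain ⟨h5, h6⟩ := pos_form_zero h1 h4
  ext : 1
  · exact e1_inj h5
  · exact e1_inj h6

/-- the absolute norm -/
def nn {i : Bool} (z : Zt (Cub ℤ i)) : ℤ := Cub.nm (Zt.ab z)

theorem nn_mul {i : Bool} (x y : Zt (Cub ℤ i)) : nn (x * y) = nn x * nn y := by
  rw [nn, Zt.ab_mul, Cub.nm_mul, nn, nn]

theorem nn_nonneg {i : Bool} (z : Zt (Cub ℤ i)) : 0 ≤ nn z := (TN_ab z).nm_nonneg

theorem nn_eq_zero {i : Bool} {z : Zt (Cub ℤ i)} : nn z = 0 ↔ z = 0 := by
  rw [nn, nm_eq_zero]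
  constructor
  · exact ab_eq_zero
  · rintro rfl
    exact Zt.ab_zero

theorem nn_pos {i : Bool} {z : Zt (Cub ℤ i)} (h : z ≠ 0) : 0 < nn z :=
  lt_of_le_of_ne (nn_nonneg z) (fun h0 => h (nn_eq_zero.1 h0.symm))

theorem nn_conj {i : Bool} (z : Zt (Cub ℤ i)) : nn (conj z) = nn z := by
  rw [nn, Zt.ab_conj, nn]

theorem nn_C {i : Bool} (a : Cub ℤ i) : nn (Zt.C a) = Cub.nm a * Cub.nm a := by
  rw [nn, Zt.ab_C, Cub.nm_mul]

/-- elements fixed by the involution are constants -/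
theorem conj_fixed {i : Bool} {x : Zt (Cub ℤ i)} (h : conj x = x) : x = Zt.C x.re := by
  have h1 := congrArg Zt.im h
  rw [Zt.conj_im] at h1
  have h2 := congrArg Cub.x0 h1
  have h3 := congrArg Cub.x1 h1
  have h4 := congrArg Cub.x2 h1
  simp only [Cub.neg_x0, Cub.neg_x1, Cub.neg_x2] at h2 h3 h4
  ext : 1
  · rfl
  · rw [Zt.C_im]
    ext
    · rw [Cub.zero_x0]; omega
    · rw [Cub.zero_x1]; omega
    · rw [Cub.zero_x2]; omega

/-- the cofactor -/
def cof {i : Bool} (w : Zt (Cub ℤ i)) : Zt (Cub ℤ i) :=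
  conj w * Zt.C (Cub.sig (Zt.ab w) * Cub.sig (Cub.sig (Zt.ab w)))

theorem mul_cof {i : Bool} (w : Zt (Cub ℤ i)) : w * cof w = Zt.C (Cub.C (nn w)) := by
  rw [cof, ← mul_assoc, Zt.mul_conj, ← map_mul, ← mul_assoc, Cub.nm_spec, nn]

theorem ab_cof {i : Bool} (w : Zt (Cub ℤ i)) : Zt.ab (cof w) = Cub.C (nn w) *
    (Cub.sig (Zt.ab w) * Cub.sig (Cub.sig (Zt.ab w))) := by
  rw [cof, Zt.ab_mul, Zt.ab_conj, Zt.ab_C, nn, ← Cub.nm_spec]
  ring

theorem nn_cof {i : Bool} (w : Zt (Cub ℤ i)) : nn (cof w) = nn w ^ 5 := by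
  rw [nn, ab_cof, Cub.nm_mul, Cub.nm_mul, Cub.nm_sig, Cub.nm_sig, Cub.nm_sig, Cub.nm_C]
  change _ * (nn w * nn w) = _
  ring

/-- reduced norms are totally non-negative -/
theorem nrd_eq {i : Bool} (x : Dbl (Zt (Cub ℤ i)) true) :
    Dbl.nrd x = Zt.C (Zt.ab x.fst + Zt.ab x.snd) := by
  rw [map_add, ← Zt.mul_conj, ← Zt.mul_conj]
  simp [Dbl.nrd]

theorem nrd_zero {i : Bool} (x : Dbl (Zt (Cub ℤ i)) true) (h : Dbl.nrd x = 0) : x = 0 := by
  rw [nrd_eq, ← map_zero (Zt.C (K := Cub ℤ i))] at h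
  have h1 := Zt.C_inj h
  have h2 := TN_ab x.fst
  have h3 := TN_ab x.snd
  have h4 := congrArg (e1 i) h1
  rw [map_add, map_zero] at h4
  have h5 : e1 i (Zt.ab x.fst) = 0 := by linarith [h2.1, h3.1]
  have h6 : e1 i (Zt.ab x.snd) = 0 := by linarith [h2.1, h3.1]
  ext : 1
  · exact ab_eq_zero (e1_inj h5)
  · exact ab_eq_zero (e1_inj h6)

theorem TN.div {i : Bool} {x y : Cub ℤ i} (hx : TN x) (hx0 : x ≠ 0) (hxy : TN (x * y)) :
    TN y := by
  have h1 : e1 i x * e2 i x * e3 i x ≠ 0 := by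
    rw [e_nm]
    have : Cub.nm x ≠ 0 := fun h => hx0 (nm_eq_zero.1 h)
    exact_mod_cast this
  obtain ⟨a, b, c⟩ := hx
  obtain ⟨a', b', c'⟩ := hxy
  rw [map_mul] at a' b' c'
  have a0 : e1 i x ≠ 0 := fun h => h1 (by rw [h]; ring)
  have b0 : e2 i x ≠ 0 := fun h => h1 (by rw [h]; ring)
  have c0 : e3 i x ≠ 0 := fun h => h1 (by rw [h]; ring)
  exact ⟨nonneg_of_mul_nonneg_right a' (lt_of_le_of_ne a (Ne.symm a0)),
    nonneg_of_mul_nonneg_right b' (lt_of_le_of_ne b (Ne.symm b0)),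
    nonneg_of_mul_nonneg_right c' (lt_of_le_of_ne c (Ne.symm c0))⟩

/-- determinants are totally non-negative -/
theorem Dt_TN {i : Bool} (g : Matrix (Fin 2) (Fin 2) (Dbl (Zt (Cub ℤ i)) true)) :
    ∃ v : Cub ℤ i, Dt g = Zt.C v ∧ TN v := by
  refine ⟨_, conj_fixed (conj_Dt g), ?_⟩
  have hN : ∀ x : Dbl (Zt (Cub ℤ i)) true, TN (Zt.ab x.fst + Zt.ab x.snd) :=
    fun x => (TN_ab _).add (TN_ab _)
  by_cases h : g 0 0 = 0
  · rw [Dt_swap g h, nrd_eq, nrd_eq, ← map_mul]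
    exact (hN _).mul (hN _)
  · have h0 := Dt_schur g
    rw [conj_fixed (conj_Dt g), nrd_eq, nrd_eq, ← map_mul, ← map_mul, ← map_mul] at h0
    have h1 := Zt.C_inj h0
    have h2 : Zt.ab (g 0 0).fst + Zt.ab (g 0 0).snd ≠ 0 := by
      intro h2
      apply h
      apply nrd_zero
      rw [nrd_eq, h2, map_zero]
    have h3 : (Zt.ab (g 0 0).fst + Zt.ab (g 0 0).snd) *
        (Zt.ab (g 0 0).fst + Zt.ab (g 0 0).snd) ≠ 0 := by
      intro h3
      apply h2
      apply nm_eq_zero.1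
      have h4 := nm_eq_zero.2 h3
      rw [Cub.nm_mul] at h4
      exact mul_self_eq_zero.1 h4
    apply TN.div ((hN (g 0 0)).mul (hN (g 0 0))) h3
    rw [h1]
    exact (hN _).mul (hN _)

end Vale.Agent.P246.Cyc
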