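import Vale.Agent.P246.Q24.Base

/-!
# Cubic and sextic rings for `Q_28` and `Q_36`

`Cub A i = A[η]`, the ring generated by `η = ζ + ζ⁻¹`, where `ζ` is a primitive root of unity of
order `7` (`i = false`) or `9` (`i = true`);  `Zt K = K[ζ]`, `ζ² = η ζ - 1`.
-/

set_option linter.all false

namespace Vale.Agent.P246.Cyc

open Vale.Agent.P246.Q24

/-- `η³ = P η² + Q η + R` and `η⁴ = 3 η² - η + S` -/
def cP (A : Type) [CommRing A] (i : Bool) : A := bif i then 0 else -1
def cQ (A : Type) [CommRing A] (i : Bool) : A := bif i then 3 else 2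
def cR (A : Type) [CommRing A] (i : Bool) : A := bif i then -1 else 1
def cS (A : Type) [CommRing A] (i : Bool) : A := bif i then 0 else -1

section

variable (A : Type) [CommRing A]

@[simp] theorem cP_false : cP A false = -1 := rfl
@[simp] theorem cP_true : cP A true = 0 := rfl
@[simp] theorem cQ_false : cQ A false = 2 := rfl
@[simp] theorem cQ_true : cQ A true = 3 := rfl
@[simp] theorem cR_false : cR A false = 1 := rfl
@[simp] theorem cR_true : cR A true = -1 := rfl
@[simp] theorem cS_false : cS A false = -1 := rfl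
@[simp] theorem cS_true : cS A true = 0 := rfl

variable {A} {B : Type} [CommRing B] (f : A →+* B) (i : Bool)

@[simp] theorem map_cP : f (cP A i) = cP B i := by cases i <;> simp
@[simp] theorem map_cQ : f (cQ A i) = cQ B i := by
  cases i
  · exact map_ofNat f 2
  · exact map_ofNat f 3
@[simp] theorem map_cR : f (cR A i) = cR B i := by cases i <;> simp
@[simp] theorem map_cS : f (cS A i) = cS B i := by cases i <;> simp

end

/-- `x0 + x1 η + x2 η²` -/
@[ext] structure Cub (A : Type) (i : Bool) where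
  x0 : A
  x1 : A
  x2 : A
deriving DecidableEq

namespace Cub

variable {A : Type} [CommRing A] {i : Bool}

instance : Zero (Cub A i) := ⟨⟨0, 0, 0⟩⟩
instance : One (Cub A i) := ⟨⟨1, 0, 0⟩⟩
instance : Add (Cub A i) := ⟨fun x y => ⟨x.x0 + y.x0, x.x1 + y.x1, x.x2 + y.x2⟩⟩
instance : Neg (Cub A i) := ⟨fun x => ⟨-x.x0, -x.x1, -x.x2⟩⟩
instance : Sub (Cub A i) := ⟨fun x y => ⟨x.x0 - y.x0, x.x1 - y.x1, x.x2 - y.x2⟩⟩
instance : Mul (Cub A i) := ⟨fun x y =>
  ⟨x.x0 * y.x0 + cR A i * (x.x1 * y.x2 + x.x2 * y.x1) + cS A i * (x.x2 * y.x2),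
   x.x0 * y.x1 + x.x1 * y.x0 + cQ A i * (x.x1 * y.x2 + x.x2 * y.x1) - x.x2 * y.x2,
   x.x0 * y.x2 + x.x1 * y.x1 + x.x2 * y.x0 + cP A i * (x.x1 * y.x2 + x.x2 * y.x1) +
    3 * (x.x2 * y.x2)⟩⟩
instance : SMul ℕ (Cub A i) := ⟨fun n x => ⟨n • x.x0, n • x.x1, n • x.x2⟩⟩
instance : SMul ℤ (Cub A i) := ⟨fun n x => ⟨n • x.x0, n • x.x1, n • x.x2⟩⟩
instance : NatCast (Cub A i) := ⟨fun n => ⟨n, 0, 0⟩⟩
instance : IntCast (Cub A i) := ⟨fun n => ⟨n, 0, 0⟩⟩

@[simp] theorem zero_x0 : (0 : Cub A i).x0 = 0 := rfl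
@[simp] theorem zero_x1 : (0 : Cub A i).x1 = 0 := rfl
@[simp] theorem zero_x2 : (0 : Cub A i).x2 = 0 := rfl
@[simp] theorem one_x0 : (1 : Cub A i).x0 = 1 := rfl
@[simp] theorem one_x1 : (1 : Cub A i).x1 = 0 := rfl
@[simp] theorem one_x2 : (1 : Cub A i).x2 = 0 := rfl
@[simp] theorem add_x0 (x y : Cub A i) : (x + y).x0 = x.x0 + y.x0 := rfl
@[simp] theorem add_x1 (x y : Cub A i) : (x + y).x1 = x.x1 + y.x1 := rfl
@[simp] theorem add_x2 (x y : Cub A i) : (x + y).x2 = x.x2 + y.x2 := rfl
@[simp] theorem neg_x0 (x : Cub A i) : (-x).x0 = -x.x0 := rfl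
@[simp] theorem neg_x1 (x : Cub A i) : (-x).x1 = -x.x1 := rfl
@[simp] theorem neg_x2 (x : Cub A i) : (-x).x2 = -x.x2 := rfl
@[simp] theorem sub_x0 (x y : Cub A i) : (x - y).x0 = x.x0 - y.x0 := rfl
@[simp] theorem sub_x1 (x y : Cub A i) : (x - y).x1 = x.x1 - y.x1 := rfl
@[simp] theorem sub_x2 (x y : Cub A i) : (x - y).x2 = x.x2 - y.x2 := rfl
@[simp] theorem mul_x0 (x y : Cub A i) : (x * y).x0 =
  x.x0 * y.x0 + cR A i * (x.x1 * y.x2 + x.x2 * y.x1) + cS A i * (x.x2 * y.x2) := rfl
@[simp] theorem mul_x1 (x y : Cub A i) : (x * y).x1 =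
  x.x0 * y.x1 + x.x1 * y.x0 + cQ A i * (x.x1 * y.x2 + x.x2 * y.x1) - x.x2 * y.x2 := rfl
@[simp] theorem mul_x2 (x y : Cub A i) : (x * y).x2 =
  x.x0 * y.x2 + x.x1 * y.x1 + x.x2 * y.x0 + cP A i * (x.x1 * y.x2 + x.x2 * y.x1) +
    3 * (x.x2 * y.x2) := rfl
@[simp] theorem nsmul_x0 (n : ℕ) (x : Cub A i) : (n • x).x0 = n • x.x0 := rfl
@[simp] theorem nsmul_x1 (n : ℕ) (x : Cub A i) : (n • x).x1 = n • x.x1 := rfl
@[simp] theorem nsmul_x2 (n : ℕ) (x : Cub A i) : (n • x).x2 = n • x.x2 := rfl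
@[simp] theorem zsmul_x0 (n : ℤ) (x : Cub A i) : (n • x).x0 = n • x.x0 := rfl
@[simp] theorem zsmul_x1 (n : ℤ) (x : Cub A i) : (n • x).x1 = n • x.x1 := rfl
@[simp] theorem zsmul_x2 (n : ℤ) (x : Cub A i) : (n • x).x2 = n • x.x2 := rfl
@[simp] theorem natCast_x0 (n : ℕ) : (n : Cub A i).x0 = n := rfl
@[simp] theorem natCast_x1 (n : ℕ) : (n : Cub A i).x1 = 0 := rfl
@[simp] theorem natCast_x2 (n : ℕ) : (n : Cub A i).x2 = 0 := rfl
@[simp] theorem intCast_x0 (n : ℤ) : (n : Cub A i).x0 = n := rfl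
@[simp] theorem intCast_x1 (n : ℤ) : (n : Cub A i).x1 = 0 := rfl
@[simp] theorem intCast_x2 (n : ℤ) : (n : Cub A i).x2 = 0 := rfl

instance : CommRing (Cub A i) where
  add_assoc a b c := by ext <;> simp [add_assoc]
  zero_add a := by ext <;> simp
  add_zero a := by ext <;> simp
  add_comm a b := by ext <;> simp [add_comm]
  neg_add_cancel a := by ext <;> simp
  sub_eq_add_neg a b := by ext <;> simp [sub_eq_add_neg]
  nsmul n x := n • x
  nsmul_zero x := by ext <;> simp
  nsmul_succ n x := by ext <;> simp [add_mul]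
  zsmul n x := n • x
  zsmul_zero' x := by ext <;> simp
  zsmul_succ' n x := by ext <;> simp [add_mul]
  zsmul_neg' n x := by ext <;> simp <;> ring
  mul_assoc a b c := by cases i <;> ext <;> simp <;> ring
  one_mul a := by ext <;> simp
  mul_one a := by ext <;> simp
  mul_comm a b := by ext <;> simp <;> ring
  left_distrib a b c := by ext <;> simp <;> ring
  right_distrib a b c := by ext <;> simp <;> ring
  zero_mul a := by ext <;> simp
  mul_zero a := by ext <;> simp
  natCast n := n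
  natCast_zero := by ext <;> simp
  natCast_succ n := by ext <;> simp
  intCast n := n
  intCast_ofNat n := by ext <;> simp
  intCast_negSucc n := by ext <;> simp

@[simp] theorem ofNat_x0 (n : ℕ) [n.AtLeastTwo] : (ofNat(n) : Cub A i).x0 = ofNat(n) := by
  change ((n : ℕ) : Cub A i).x0 = _
  simp; rfl
@[simp] theorem ofNat_x1 (n : ℕ) [n.AtLeastTwo] : (ofNat(n) : Cub A i).x1 = 0 := by
  change ((n : ℕ) : Cub A i).x1 = _
  simp
@[simp] theorem ofNat_x2 (n : ℕ) [n.AtLeastTwo] : (ofNat(n) : Cub A i).x2 = 0 := by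
  change ((n : ℕ) : Cub A i).x2 = _
  simp

/-- the trivial involution -/
instance : Invo (Cub A i) := ⟨RingHom.id _, fun _ => rfl⟩

@[simp] theorem conj_cub (x : Cub A i) : (conj x : Cub A i) = x := rfl

/-- functoriality -/
def map {B : Type} [CommRing B] (f : A →+* B) : Cub A i →+* Cub B i where
  toFun := fun x => ⟨f x.x0, f x.x1, f x.x2⟩
  map_one' := by ext <;> simp
  map_zero' := by ext <;> simp
  map_add' := fun x y => by ext <;> simp
  map_mul' := fun x y => by
    have h3 : f 3 = 3 := map_ofNat f 3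
    ext <;> simp [h3]

@[simp] theorem map_x0 {B : Type} [CommRing B] (f : A →+* B) (x : Cub A i) :
    (map f x).x0 = f x.x0 := rfl
@[simp] theorem map_x1 {B : Type} [CommRing B] (f : A →+* B) (x : Cub A i) :
    (map f x).x1 = f x.x1 := rfl
@[simp] theorem map_x2 {B : Type} [CommRing B] (f : A →+* B) (x : Cub A i) :
    (map f x).x2 = f x.x2 := rfl

/-- evaluation at a root -/
def ev {B : Type} [CommRing B] (f : A →+* B) (θ : B)
    (h : θ * θ * θ = cP B i * (θ * θ) + cQ B i * θ + cR B i) : Cub A i →+* B where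
  toFun := fun x => f x.x0 + f x.x1 * θ + f x.x2 * (θ * θ)
  map_one' := by simp
  map_zero' := by simp
  map_add' := fun x y => by simp; ring
  map_mul' := fun x y => by
    have h4 : θ * θ * θ * θ = 3 * (θ * θ) - θ + cS B i := by
      cases i
      · simp at h ⊢; linear_combination (θ - 1) * h
      · simp at h ⊢; linear_combination θ * h
    have h3 : f 3 = 3 := map_ofNat f 3
    simp [h3]
    linear_combination (-(f x.x1 * f y.x2 + f x.x2 * f y.x1)) * h - f x.x2 * f y.x2 * h4

@[simp] theorem ev_apply {B : Type} [CommRing B] (f : A →+* B) (θ : B)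
    (h : θ * θ * θ = cP B i * (θ * θ) + cQ B i * θ + cR B i) (x : Cub A i) :
    ev f θ h x = f x.x0 + f x.x1 * θ + f x.x2 * (θ * θ) := rfl

end Cub

/-- a ring with a distinguished element `η` -/
class Eta (K : Type) where
  eta : K

export Eta (eta)

instance {A : Type} [CommRing A] {i : Bool} : Eta (Cub A i) := ⟨⟨0, 1, 0⟩⟩

@[simp] theorem eta_x0 {A : Type} [CommRing A] {i : Bool} : (eta : Cub A i).x0 = 0 := rfl
@[simp] theorem eta_x1 {A : Type} [CommRing A] {i : Bool} : (eta : Cub A i).x1 = 1 := rfl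
@[simp] theorem eta_x2 {A : Type} [CommRing A] {i : Bool} : (eta : Cub A i).x2 = 0 := rfl

theorem Cub.map_eta {A B : Type} [CommRing A] [CommRing B] {i : Bool} (f : A →+* B) :
    Cub.map f (eta : Cub A i) = eta := by ext <;> simp

/-- `re + im ζ`, `ζ² = η ζ - 1` -/
@[ext] structure Zt (K : Type) where
  re : K
  im : K
deriving DecidableEq

namespace Zt

variable {K : Type} [CommRing K] [Eta K]

instance : Zero (Zt K) := ⟨⟨0, 0⟩⟩
instance : One (Zt K) := ⟨⟨1, 0⟩⟩
instance : Add (Zt K) := ⟨fun x y => ⟨x.re + y.re, x.im + y.im⟩⟩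
instance : Neg (Zt K) := ⟨fun x => ⟨-x.re, -x.im⟩⟩
instance : Sub (Zt K) := ⟨fun x y => ⟨x.re - y.re, x.im - y.im⟩⟩
instance : Mul (Zt K) := ⟨fun x y => ⟨x.re * y.re - x.im * y.im,
  x.re * y.im + x.im * y.re + eta * (x.im * y.im)⟩⟩
instance : SMul ℕ (Zt K) := ⟨fun n x => ⟨n • x.re, n • x.im⟩⟩
instance : SMul ℤ (Zt K) := ⟨fun n x => ⟨n • x.re, n • x.im⟩⟩
instance : NatCast (Zt K) := ⟨fun n => ⟨n, 0⟩⟩
instance : IntCast (Zt K) := ⟨fun n => ⟨n, 0⟩⟩

@[simp] theorem zero_re : (0 : Zt K).re = 0 := rfl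
@[simp] theorem zero_im : (0 : Zt K).im = 0 := rfl
@[simp] theorem one_re : (1 : Zt K).re = 1 := rfl
@[simp] theorem one_im : (1 : Zt K).im = 0 := rfl
@[simp] theorem add_re (x y : Zt K) : (x + y).re = x.re + y.re := rfl
@[simp] theorem add_im (x y : Zt K) : (x + y).im = x.im + y.im := rfl
@[simp] theorem neg_re (x : Zt K) : (-x).re = -x.re := rfl
@[simp] theorem neg_im (x : Zt K) : (-x).im = -x.im := rfl
@[simp] theorem sub_re (x y : Zt K) : (x - y).re = x.re - y.re := rfl
@[simp] theorem sub_im (x y : Zt K) : (x - y).im = x.im - y.im := rfl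
@[simp] theorem mul_re (x y : Zt K) : (x * y).re = x.re * y.re - x.im * y.im := rfl
@[simp] theorem mul_im (x y : Zt K) :
    (x * y).im = x.re * y.im + x.im * y.re + eta * (x.im * y.im) := rfl
@[simp] theorem nsmul_re (n : ℕ) (x : Zt K) : (n • x).re = n • x.re := rfl
@[simp] theorem nsmul_im (n : ℕ) (x : Zt K) : (n • x).im = n • x.im := rfl
@[simp] theorem zsmul_re (n : ℤ) (x : Zt K) : (n • x).re = n • x.re := rfl
@[simp] theorem zsmul_im (n : ℤ) (x : Zt K) : (n • x).im = n • x.im := rfl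
@[simp] theorem natCast_re (n : ℕ) : (n : Zt K).re = n := rfl
@[simp] theorem natCast_im (n : ℕ) : (n : Zt K).im = 0 := rfl
@[simp] theorem intCast_re (n : ℤ) : (n : Zt K).re = n := rfl
@[simp] theorem intCast_im (n : ℤ) : (n : Zt K).im = 0 := rfl

instance : CommRing (Zt K) where
  add_assoc a b c := by ext <;> simp [add_assoc]
  zero_add a := by ext <;> simp
  add_zero a := by ext <;> simp
  add_comm a b := by ext <;> simp [add_comm]
  neg_add_cancel a := by ext <;> simp
  sub_eq_add_neg a b := by ext <;> simp [sub_eq_add_neg]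
  nsmul n x := n • x
  nsmul_zero x := by ext <;> simp
  nsmul_succ n x := by ext <;> simp [add_mul]
  zsmul n x := n • x
  zsmul_zero' x := by ext <;> simp
  zsmul_succ' n x := by ext <;> simp [add_mul]
  zsmul_neg' n x := by ext <;> simp <;> ring
  mul_assoc a b c := by ext <;> simp <;> ring
  one_mul a := by ext <;> simp
  mul_one a := by ext <;> simp
  mul_comm a b := by ext <;> simp <;> ring
  left_distrib a b c := by ext <;> simp <;> ring
  right_distrib a b c := by ext <;> simp <;> ring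
  zero_mul a := by ext <;> simp
  mul_zero a := by ext <;> simp
  natCast n := n
  natCast_zero := by ext <;> simp
  natCast_succ n := by ext <;> simp
  intCast n := n
  intCast_ofNat n := by ext <;> simp
  intCast_negSucc n := by ext <;> simp

@[simp] theorem ofNat_re (n : ℕ) [n.AtLeastTwo] : (ofNat(n) : Zt K).re = ofNat(n) := by
  change ((n : ℕ) : Zt K).re = _
  simp; rfl
@[simp] theorem ofNat_im (n : ℕ) [n.AtLeastTwo] : (ofNat(n) : Zt K).im = 0 := by
  change ((n : ℕ) : Zt K).im = _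
  simp

/-- `conj ζ = η - ζ` -/
instance : Invo (Zt K) where
  conj :=
    { toFun := fun x => ⟨x.re + eta * x.im, -x.im⟩
      map_one' := by ext <;> simp
      map_zero' := by ext <;> simp
      map_add' := fun x y => by ext <;> simp <;> ring
      map_mul' := fun x y => by ext <;> simp <;> ring }
  conj_conj x := by ext <;> simp

@[simp] theorem conj_re (x : Zt K) : (conj x : Zt K).re = x.re + eta * x.im := rfl
@[simp] theorem conj_im (x : Zt K) : (conj x : Zt K).im = -x.im := rfl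

/-- the inclusion `K → K[ζ]` -/
def C : K →+* Zt K where
  toFun := fun a => ⟨a, 0⟩
  map_one' := rfl
  map_zero' := rfl
  map_add' := fun x y => by ext <;> simp
  map_mul' := fun x y => by ext <;> simp

@[simp] theorem C_re (a : K) : (C a : Zt K).re = a := rfl
@[simp] theorem C_im (a : K) : (C a : Zt K).im = 0 := rfl

/-- functoriality -/
def map {L : Type} [CommRing L] [Eta L] (f : K →+* L) (hf : f eta = eta) : Zt K →+* Zt L where
  toFun := fun x => ⟨f x.re, f x.im⟩
  map_one' := by ext <;> simp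
  map_zero' := by ext <;> simp
  map_add' := fun x y => by ext <;> simp
  map_mul' := fun x y => by ext <;> simp [hf]

@[simp] theorem map_re {L : Type} [CommRing L] [Eta L] (f : K →+* L) (hf : f eta = eta) (x : Zt K) :
    (map f hf x).re = f x.re := rfl
@[simp] theorem map_im {L : Type} [CommRing L] [Eta L] (f : K →+* L) (hf : f eta = eta) (x : Zt K) :
    (map f hf x).im = f x.im := rfl

theorem map_conj {L : Type} [CommRing L] [Eta L] (f : K →+* L) (hf : f eta = eta) (x : Zt K) :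
    map f hf (conj x) = conj (map f hf x) := by
  ext <;> simp [hf]

/-- reduction modulo `1 - ζ` -/
def red1 {F : Type} [CommRing F] (f : K →+* F) (hf : f eta = 2) : Zt K →+* F where
  toFun := fun x => f x.re + f x.im
  map_one' := by simp
  map_zero' := by simp
  map_add' := fun x y => by simp; ring
  map_mul' := fun x y => by simp [hf]; ring

@[simp] theorem red1_apply {F : Type} [CommRing F] (f : K →+* F) (hf : f eta = 2) (x : Zt K) :
    red1 f hf x = f x.re + f x.im := rfl

theorem red1_conj {F : Type} [CommRing F] (f : K →+* F) (hf : f eta = 2) (x : Zt K) :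
    red1 f hf (conj x) = red1 f hf x := by
  simp [hf]; ring

/-- `ζ` -/
def zeta (K : Type) [CommRing K] [Eta K] : Zt K := ⟨0, 1⟩

end Zt

end Vale.Agent.P246.Cyc
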