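import Vale.Agent.P246.Cyc.Base
import Vale.Agent.P246.Cyc.Gam

/-!
# `Dbl (Zt K) false` is the order `{(a, b; π c, d)}`, `π = 2 - η`
-/

set_option linter.all false

namespace Vale.Agent.P246.Cyc

open Vale.Agent.P246.Q24

variable {K : Type} [CommRing K] [Eta K]

/-- `x = (A + B λ) + (C + D λ) y ↦ (A + C, π (C + D - B); B + D, A + π B - C)`, `λ = 1 - ζ`,
`π = 2 - η`, if `2 + η` is a unit -/
def gamEquiv (e : K) (he : (2 + eta) * e = 1) : Dbl (Zt K) false ≃+* Gam K (2 - eta) where
  toFun x := ⟨x.fst.re + x.fst.im + x.snd.re + x.snd.im,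
    x.snd.re + x.fst.im, -x.fst.im - x.snd.im,
    x.fst.re + x.fst.im - (2 - eta) * x.fst.im - x.snd.re - x.snd.im⟩
  invFun m :=
    ⟨⟨m.a - m.b + m.c - e * (m.a - m.d - 2 * m.b + 2 * m.c),
      -(e * (m.a - m.d - 2 * m.b + 2 * m.c))⟩,
      ⟨m.b + e * (m.a - m.d - 2 * m.b + 2 * m.c),
      -m.c + e * (m.a - m.d - 2 * m.b + 2 * m.c)⟩⟩
  left_inv x := by
    ext
    · simp
      linear_combination x.fst.im * he
    · simp
      linear_combination x.fst.im * he
    · simp
      linear_combination (-x.fst.im) * he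
    · simp
      linear_combination (-x.fst.im) * he
  right_inv m := by
    ext
    · simp
      ring
    · simp
    · simp
    · simp
      linear_combination (-(m.a - m.d - 2 * m.b + 2 * m.c)) * he
  map_add' x y := by ext <;> simp <;> ring
  map_mul' x y := by ext <;> simp <;> ring

/-- transitivity for `Dbl (Zt K) false` -/
theorem TR_Zt (hbez : Bez K) (e : K) (he : (2 + eta) * e = 1) : TR (Dbl (Zt K) false) :=
  TR_equiv (gamEquiv e he) (Gam.TR_Gam hbez _)

/-- the inverse of `2 + η`: `η² - η` for `n = 7`, and `(η - 1)²` for `n = 9` -/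
def ie (i : Bool) : Cub ℤ i := bif i then ⟨1, -2, 1⟩ else ⟨0, -1, 1⟩

theorem ie_spec (i : Bool) : (2 + eta) * ie i = 1 := by
  cases i
  · decide
  · decide

end Vale.Agent.P246.Cyc
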