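import Vale.Agent.P246.Cyc.Emb
import Vale.Agent.P246.Cyc.GamEquiv
import Vale.Agent.P246.Q24.H3
import Mathlib.Data.Int.Lemmas

/-!
# The cubic rings are norm-Euclidean
-/

set_option linter.all false

namespace Vale.Agent.P246.Cyc

open Vale.Agent.P246.Q24

/-- the trace form for `ζ_7` in the coordinates `η, η', η''` -/
def q7 (a b c : ℤ) : ℤ := 7 * (a * a + b * b + c * c) - 2 * ((a + b + c) * (a + b + c))

theorem q7_sorted {a b c m : ℤ} (hm : 0 < m) (ha : 0 ≤ a) (hab : a ≤ b) (hbc : b ≤ c)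
    (hc : c < m) : ∃ x y z : ℤ, q7 (a - x * m) (b - y * m) (c - z * m) < 3 * (m * m) := by
  by_contra hcon
  push Not at hcon
  have h0 := hcon 0 0 0
  have h1 := hcon 0 0 1
  have h2 := hcon 0 1 1
  have h3 := hcon 1 1 1
  have l0 : 0 < m - c := by linarith
  have l1 : 0 ≤ c - b := by linarith
  have l2 : 0 ≤ b - a := by linarith
  have g0 := mul_le_mul_of_nonneg_left h0 l0.le
  have g1 := mul_le_mul_of_nonneg_left h1 l1
  have g2 := mul_le_mul_of_nonneg_left h2 l2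
  have g3 := mul_le_mul_of_nonneg_left h3 ha
  have hm3 : 0 < m * m * m := by positivity
  have s1 := mul_nonneg hm.le (mul_self_nonneg (m - 2 * a))
  have s2 := mul_nonneg hm.le (mul_self_nonneg (m - 2 * b))
  have s3 := mul_nonneg hm.le (mul_self_nonneg (m - 2 * c))
  have s4 := mul_nonneg hm.le (mul_self_nonneg (m - 2 * (b - a)))
  have s5 := mul_nonneg hm.le (mul_self_nonneg (m - 2 * (c - a)))
  have s6 := mul_nonneg hm.le (mul_self_nonneg (m - 2 * (c - b)))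
  unfold q7 at g0 g1 g2 g3
  nlinarith

theorem q7_perm1 (a b c : ℤ) : q7 a b c = q7 b a c := by unfold q7; ring
theorem q7_perm2 (a b c : ℤ) : q7 a b c = q7 a c b := by unfold q7; ring

theorem q7_box {a b c m : ℤ} (hm : 0 < m) (ha : 0 ≤ a) (hb : 0 ≤ b) (hc : 0 ≤ c) (ha' : a < m)
    (hb' : b < m) (hc' : c < m) :
    ∃ x y z : ℤ, q7 (a - x * m) (b - y * m) (c - z * m) < 3 * (m * m) := by
  rcases le_total a b with h1 | h1 <;> rcases le_total b c with h2 | h2 <;>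
    rcases le_total a c with h3 | h3
  · exact q7_sorted hm ha h1 h2 hc'
  · exact q7_sorted hm ha h1 h2 hc'
  · obtain ⟨x, y, z, h⟩ := q7_sorted hm ha h3 h2 hb'
    exact ⟨x, z, y, by rw [q7_perm2]; exact h⟩
  · obtain ⟨x, y, z, h⟩ := q7_sorted hm hc h3 h1 hb'
    exact ⟨y, z, x, by rw [q7_perm2, q7_perm1]; exact h⟩
  · obtain ⟨x, y, z, h⟩ := q7_sorted hm hb h1 h3 hc'
    exact ⟨y, x, z, by rw [q7_perm1]; exact h⟩
  · obtain ⟨x, y, z, h⟩ := q7_sorted hm hb h2 h3 ha'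
    exact ⟨z, x, y, by rw [q7_perm1, q7_perm2]; exact h⟩
  · obtain ⟨x, y, z, h⟩ := q7_sorted hm hc h2 h1 ha'
    exact ⟨z, y, x, by rw [q7_perm1, q7_perm2, q7_perm1]; exact h⟩
  · obtain ⟨x, y, z, h⟩ := q7_sorted hm hc h2 h1 ha'
    exact ⟨z, y, x, by rw [q7_perm1, q7_perm2, q7_perm1]; exact h⟩

theorem q7_cover (a b c m : ℤ) (hm : 0 < m) :
    ∃ x y z : ℤ, q7 (a - x * m) (b - y * m) (c - z * m) < 3 * (m * m) := by
  obtain ⟨x, y, z, h⟩ := q7_box hm (Int.emod_nonneg a hm.ne') (Int.emod_nonneg b hm.ne')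
    (Int.emod_nonneg c hm.ne') (Int.emod_lt_of_pos a hm) (Int.emod_lt_of_pos b hm)
    (Int.emod_lt_of_pos c hm)
  refine ⟨a / m + x, b / m + y, c / m + z, ?_⟩
  have ea := Int.emod_add_mul_ediv a m
  have eb := Int.emod_add_mul_ediv b m
  have ec := Int.emod_add_mul_ediv c m
  have h1 : a - (a / m + x) * m = a % m - x * m := by linear_combination -ea
  have h2 : b - (b / m + y) * m = b % m - y * m := by linear_combination -eb
  have h3 : c - (c / m + z) * m = c % m - z * m := by linear_combination -ec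
  rw [h1, h2, h3]
  exact h

theorem near (x m : ℤ) (hm : 0 < m) : ∃ q : ℤ, 4 * ((x - q * m) * (x - q * m)) ≤ m * m := by
  have h1 := Int.emod_nonneg x hm.ne'
  have h2 := Int.emod_lt_of_pos x hm
  have h3 := Int.emod_add_mul_ediv x m
  by_cases h : 2 * (x % m) ≤ m
  · refine ⟨x / m, ?_⟩
    have : x - x / m * m = x % m := by linear_combination -h3
    rw [this]
    nlinarith
  · refine ⟨x / m + 1, ?_⟩
    have : x - (x / m + 1) * m = x % m - m := by linear_combination -h3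
    rw [this]
    nlinarith

theorem cover {i : Bool} (x : Cub ℤ i) (m : ℤ) (hm : 0 < m) :
    ∃ q : Cub ℤ i, Cub.tr ((x - Cub.C m * q) * (x - Cub.C m * q)) < 3 * (m * m) := by
  cases i
  · -- coordinates `b = (x1 - c, x2 - c, -c)`, `c = x0 + 2 x2`
    obtain ⟨u, v, w, h⟩ := q7_cover (x.x1 - (x.x0 + 2 * x.x2)) (x.x2 - (x.x0 + 2 * x.x2))
      (-(x.x0 + 2 * x.x2)) m hm
    refine ⟨⟨-w - 2 * (v - w), u - w, v - w⟩, ?_⟩
    refine lt_of_eq_of_lt ?_ h
    simp [Cub.tr, q7]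
    ring
  · obtain ⟨q0, h0⟩ := near (x.x0 + 2 * x.x2) m hm
    obtain ⟨q1, q2, h1⟩ := Zet.hex x.x1 x.x2 m hm
    refine ⟨⟨q0 - 2 * q2, q1, q2⟩, ?_⟩
    have hm2 : 0 < m * m := by positivity
    have key : Cub.tr ((x - Cub.C m * ⟨q0 - 2 * q2, q1, q2⟩) *
        (x - Cub.C m * ⟨q0 - 2 * q2, q1, q2⟩)) =
        3 * ((x.x0 + 2 * x.x2 - q0 * m) * (x.x0 + 2 * x.x2 - q0 * m)) +
        6 * Zet.nf ⟨x.x1 - q1 * m, x.x2 - q2 * m⟩ := by
      simp [Cub.tr, Zet.nf]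
      ring
    rw [key]
    nlinarith

theorem nm_two {i : Bool} : ∀ x : Cub (ZMod 2) i, Cub.nm x = 0 → x = 0 := by
  cases i
  · have h : ∀ a b c : ZMod 2, Cub.nm (⟨a, b, c⟩ : Cub (ZMod 2) false) = 0 →
        (⟨a, b, c⟩ : Cub (ZMod 2) false) = 0 := by decide
    rintro ⟨a, b, c⟩
    exact h a b c
  · have h : ∀ a b c : ZMod 2, Cub.nm (⟨a, b, c⟩ : Cub (ZMod 2) true) = 0 →
        (⟨a, b, c⟩ : Cub (ZMod 2) true) = 0 := by decide
    rintro ⟨a, b, c⟩
    exact h a b c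

/-- an element of even norm is divisible by `2` -/
theorem even_of_nm {i : Bool} (x : Cub ℤ i) (h : (2 : ℤ) ∣ Cub.nm x) :
    ∃ y : Cub ℤ i, x = 2 * y := by
  have h1 : Cub.map (Int.castRingHom (ZMod 2)) x = 0 := by
    apply nm_two
    rw [Cub.map_nm]
    exact (ZMod.intCast_zmod_eq_zero_iff_dvd _ 2).2 h
  have h2 : (2 : ℤ) ∣ x.x0 := (ZMod.intCast_zmod_eq_zero_iff_dvd _ 2).1 (congrArg Cub.x0 h1)
  have h3 : (2 : ℤ) ∣ x.x1 := (ZMod.intCast_zmod_eq_zero_iff_dvd _ 2).1 (congrArg Cub.x1 h1)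
  have h4 : (2 : ℤ) ∣ x.x2 := (ZMod.intCast_zmod_eq_zero_iff_dvd _ 2).1 (congrArg Cub.x2 h1)
  obtain ⟨a, ha⟩ := h2
  obtain ⟨b, hb⟩ := h3
  obtain ⟨c, hc⟩ := h4
  refine ⟨⟨a, b, c⟩, ?_⟩
  ext <;> simp [ha, hb, hc]

theorem nm_eq_zero_aux {i : Bool} : ∀ (k : ℕ) (x : Cub ℤ i),
    x.x0.natAbs + x.x1.natAbs + x.x2.natAbs ≤ k → Cub.nm x = 0 → x = 0 := by
  intro k
  induction k with
  | zero =>
    intro x h _
    ext <;> simp <;> omega
  | succ k ih =>
    intro x h h0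
    obtain ⟨y, rfl⟩ := even_of_nm x (by rw [h0]; exact dvd_zero 2)
    simp only [Cub.mul_x0, Cub.mul_x1, Cub.mul_x2, Cub.ofNat_x0, Cub.ofNat_x1, Cub.ofNat_x2,
      zero_mul, mul_zero, add_zero, sub_zero] at h
    have h1 : Cub.nm y = 0 := by
      rw [Cub.nm_mul] at h0
      have h2 : Cub.nm (2 : Cub ℤ i) = 8 := by
        have : (2 : Cub ℤ i) = Cub.C 2 := by ext <;> simp
        rw [this, Cub.nm_C]; norm_num
      rw [h2] at h0
      linarith
    by_cases h3 : y.x0.natAbs + y.x1.natAbs + y.x2.natAbs ≤ k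
    · rw [ih y h3 h1, mul_zero]
    · exfalso
      omega

theorem nm_eq_zero {i : Bool} {x : Cub ℤ i} : Cub.nm x = 0 ↔ x = 0 := by
  constructor
  · exact nm_eq_zero_aux _ x le_rfl
  · rintro rfl
    simp [Cub.nm]

/-- the cofactor -/
def cofc {i : Bool} (n : Cub ℤ i) : Cub ℤ i :=
  Cub.C (Cub.nm n) * (Cub.sig n * Cub.sig (Cub.sig n))

theorem mul_cofc {i : Bool} (n : Cub ℤ i) : n * cofc n = Cub.C (Cub.nm n * Cub.nm n) := by
  rw [cofc, map_mul]
  have := Cub.nm_spec n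
  linear_combination (Cub.C (Cub.nm n)) * this

theorem nm_cofc {i : Bool} (n : Cub ℤ i) :
    Cub.nm (cofc n) = Cub.nm n * Cub.nm n * Cub.nm n * (Cub.nm n * Cub.nm n) := by
  rw [cofc, Cub.nm_mul, Cub.nm_mul, Cub.nm_sig, Cub.nm_sig, Cub.nm_sig, Cub.nm_C]

theorem euclid {i : Bool} (a n : Cub ℤ i) (hn : n ≠ 0) :
    ∃ q, (Cub.nm (a - n * q)).natAbs < (Cub.nm n).natAbs := by
  have hN : Cub.nm n ≠ 0 := fun h => hn (nm_eq_zero.1 h)
  set M : ℤ := Cub.nm n * Cub.nm n with hM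
  have hM0 : 0 < M := mul_self_pos.2 hN
  obtain ⟨q, hq⟩ := cover (a * cofc n) M hM0
  refine ⟨q, ?_⟩
  have h1 : a * cofc n - Cub.C M * q = (a - n * q) * cofc n := by
    rw [hM, ← mul_cofc]; ring
  rw [h1] at hq
  have h2 := amgm (TN_sq ((a - n * q) * cofc n))
  have h3 := (TN_sq ((a - n * q) * cofc n)).tr_nonneg
  rw [Cub.nm_mul, Cub.nm_mul, nm_cofc] at h2
  set T := Cub.tr ((a - n * q) * cofc n * ((a - n * q) * cofc n)) with hT
  set z := Cub.nm (a - n * q) with hz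
  set N := Cub.nm n with hNN
  have h4 : T ^ 3 < (3 * (M * M)) ^ 3 := pow_lt_pow_left₀ hq h3 (by norm_num)
  have h5 : z * z * (M * M * M * M * M) < M * (M * M * M * M * M) := by
    have e1 : z * (N * N * N * (N * N)) * (z * (N * N * N * (N * N))) =
      z * z * (M * M * M * M * M) := by rw [hM]; ring
    rw [e1] at h2
    have e2 : (3 * (M * M)) ^ 3 = 27 * (M * (M * M * M * M * M)) := by ring
    rw [e2] at h4
    linarith
  have h6 : z * z < N * N := lt_of_mul_lt_mul_right h5 (by positivity)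
  have h7 : z ^ 2 < N ^ 2 := by rw [sq, sq]; exact h6
  exact Int.natAbs_lt_iff_sq_lt.2 h7

theorem bez (i : Bool) : Bez (Cub ℤ i) := by
  intro a b
  induction hk : (Cub.nm b).natAbs using Nat.strong_induction_on generalizing a b with
  | _ k ih =>
    by_cases hb : b = 0
    · exact ⟨1, 0, 0, 1, a, by ring, by rw [hb]; ring, by rw [hb]; ring⟩
    · obtain ⟨q, hq⟩ := euclid a b hb
      obtain ⟨x, y, z, w, h, e1, e2, e3⟩ := ih _ (by rw [← hk]; exact hq) b (a - b * q) rfl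
      refine ⟨y, x - y * q, -w, -(z - w * q), h, ?_, ?_, ?_⟩
      · linear_combination e1
      · linear_combination e2
      · linear_combination -e3

/-- transitivity for `ℤ[ζ] ∘ C_2` -/
theorem TR_Zt_false (i : Bool) : TR (Dbl (Zt (Cub ℤ i)) false) :=
  TR_Zt (bez i) (ie i) (ie_spec i)

end Vale.Agent.P246.Cyc
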