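import Mathlib.Tactic
import Mathlib.Algebra.Order.Chebyshev
import Mathlib.Algebra.BigOperators.Intervals
import Mathlib.Algebra.Order.BigOperators.Group.Finset

/-!
# A covering lemma for the lattice `A_{p-1}^*` (averaging over cut points)
-/

set_option linter.all false

namespace Vale.Agent.P246.Cyc

theorem sum_sq_range (n : ℕ) : 6 * ∑ r ∈ Finset.range n, (r : ℤ) ^ 2 =
    ((n : ℤ) - 1) * n * (2 * n - 1) := by
  induction n with
  | zero => simp
  | succ n ih =>
    rw [Finset.sum_range_succ, mul_add, ih]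
    push_cast
    ring

theorem sum_range' (n : ℕ) : 2 * ∑ r ∈ Finset.range n, (r : ℤ) = (n : ℤ) * (n - 1) := by
  induction n with
  | zero => simp
  | succ n ih =>
    rw [Finset.sum_range_succ, mul_add, ih]
    push_cast
    ring

theorem sum_shift (n : ℕ) (hn : 0 < n) (x : ℤ) (f : ℤ → ℤ) :
    ∑ k ∈ Finset.range n, f ((x - k) % n) = ∑ r ∈ Finset.range n, f r := by
  have hn' : (n : ℤ) ≠ 0 := by exact_mod_cast hn.ne'
  have hn0 : (0 : ℤ) < n := by exact_mod_cast hn
  have h1 : ∀ k : ℤ, 0 ≤ (x - k) % n := fun k => Int.emod_nonneg _ hn'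
  have h2 : ∀ k : ℤ, (x - k) % n < n := fun k => Int.emod_lt_of_pos _ hn0
  have h3 : ∀ k : ℕ, k < n → ((x - (((x - k) % n).toNat : ℕ)) % n) = k := by
    intro k hk
    rw [Int.toNat_of_nonneg (h1 _), Int.sub_emod, Int.emod_emod_of_dvd _ (dvd_refl _),
      ← Int.sub_emod, sub_sub_cancel]
    exact Int.emod_eq_of_lt (Int.natCast_nonneg k) (by exact_mod_cast hk)
  refine Finset.sum_nbij' (fun k => ((x - k) % n).toNat) (fun k => ((x - k) % n).toNat) ?_ ?_ ?_
    ?_ ?_
  · intro k hk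
    have a := h1 k
    have b := h2 k
    rw [Finset.mem_range]
    omega
  · intro k hk
    have a := h1 k
    have b := h2 k
    rw [Finset.mem_range]
    omega
  · intro k hk
    have := h3 k (Finset.mem_range.1 hk)
    beta_reduce
    rw [this]
    exact Int.toNat_natCast k
  · intro k hk
    have := h3 k (Finset.mem_range.1 hk)
    beta_reduce
    rw [this]
    exact Int.toNat_natCast k
  · intro k hk
    beta_reduce
    rw [Int.toNat_of_nonneg (h1 _)]

/-- the covering lemma -/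
theorem lenstra {ι : Type} [Fintype ι] (x : ι → ℤ) (n : ℕ) (hn : 0 < n) :
    ∃ y : ι → ℤ, (∀ i, (n : ℤ) ∣ x i - y i) ∧
      12 * (Fintype.card ι * ∑ i, y i ^ 2 - (∑ i, y i) ^ 2) ≤
        (Fintype.card ι : ℤ) ^ 2 * ((n : ℤ) ^ 2 - 1) := by
  set N : ℤ := (Fintype.card ι : ℤ) with hN
  have hn' : (n : ℤ) ≠ 0 := by exact_mod_cast hn.ne'
  have hn0 : (0 : ℤ) < n := by exact_mod_cast hn
  let r : ℕ → ι → ℤ := fun k i => (x i - k) % n
  let g : ℕ → ℤ := fun k => N * ∑ i, r k i ^ 2 - (∑ i, r k i) ^ 2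
  have s1 : ∑ k ∈ Finset.range n, ∑ i, r k i ^ 2 = N * ∑ t ∈ Finset.range n, (t : ℤ) ^ 2 := by
    rw [Finset.sum_comm]
    have : ∀ i ∈ Finset.univ, ∑ k ∈ Finset.range n, r k i ^ 2 =
        ∑ t ∈ Finset.range n, (t : ℤ) ^ 2 := fun i _ => sum_shift n hn (x i) (fun z => z ^ 2)
    rw [Finset.sum_congr rfl this, Finset.sum_const, nsmul_eq_mul, hN]
    rfl
  have s2 : ∑ k ∈ Finset.range n, ∑ i, r k i = N * ∑ t ∈ Finset.range n, (t : ℤ) := by
    rw [Finset.sum_comm]
    have : ∀ i ∈ Finset.univ, ∑ k ∈ Finset.range n, r k i =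
        ∑ t ∈ Finset.range n, (t : ℤ) := fun i _ => sum_shift n hn (x i) (fun z => z)
    rw [Finset.sum_congr rfl this, Finset.sum_const, nsmul_eq_mul, hN]
    rfl
  have s3 := sq_sum_le_card_mul_sum_sq (s := Finset.range n) (f := fun k => ∑ i, r k i)
  rw [s2, Finset.card_range] at s3
  have s4 := sum_sq_range n
  have s5 := sum_range' n
  have hsum : ∑ k ∈ Finset.range n, 12 * g k ≤
      ∑ k ∈ Finset.range n, N ^ 2 * ((n : ℤ) ^ 2 - 1) := by
    rw [Finset.sum_const, Finset.card_range, ← Finset.mul_sum, Finset.sum_sub_distrib,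
      ← Finset.mul_sum, s1, nsmul_eq_mul]
    set P := ∑ t ∈ Finset.range n, (t : ℤ) ^ 2
    set Q := ∑ t ∈ Finset.range n, (t : ℤ)
    set F := ∑ k ∈ Finset.range n, (∑ i, r k i) ^ 2
    -- multiply by `n`
    have e1 : (n : ℤ) * (12 * (N * (N * P) - F)) ≤ n * (n * (N ^ 2 * ((n : ℤ) ^ 2 - 1))) := by
      have e2 : 4 * (N * Q) ^ 2 = N ^ 2 * (n * (n - 1)) ^ 2 := by rw [← s5]; ring
      have e3 : (n : ℤ) * (12 * (N * (N * P))) = 2 * n * N ^ 2 * (((n : ℤ) - 1) * n * (2 * n - 1)) := by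
        rw [← s4]; ring
      nlinarith
    exact le_of_mul_le_mul_left e1 hn0
  obtain ⟨k, hk, hle⟩ := Finset.exists_le_of_sum_le (Finset.nonempty_range_iff.2 hn.ne') hsum
  refine ⟨fun i => r k i + k, ?_, ?_⟩
  · intro i
    have := Int.emod_add_mul_ediv (x i - k) n
    refine ⟨(x i - k) / n, ?_⟩
    change x i - ((x i - k) % n + k) = _
    linear_combination -this
  · refine le_trans (le_of_eq ?_) hle
    have t1 : ∑ i, (r k i + k) ^ 2 = ∑ i, r k i ^ 2 + 2 * k * ∑ i, r k i + N * k ^ 2 := by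
      have : ∀ i, (r k i + (k : ℤ)) ^ 2 = r k i ^ 2 + 2 * k * r k i + k ^ 2 := fun i => by ring
      simp only [this, Finset.sum_add_distrib, ← Finset.mul_sum, Finset.sum_const,
        Finset.card_univ, nsmul_eq_mul, hN]
    have t2 : ∑ i, (r k i + (k : ℤ)) = ∑ i, r k i + N * k := by
      simp only [Finset.sum_add_distrib, Finset.sum_const, Finset.card_univ, nsmul_eq_mul, hN]
    rw [t1, t2]
    change _ = 12 * (N * ∑ i, r k i ^ 2 - (∑ i, r k i) ^ 2)
    ring

end Vale.Agent.P246.Cyc
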