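import Vale.Agent.P246.Cyc.Nm
import Mathlib.Tactic
import Mathlib.Topology.Order.IntermediateValue
import Mathlib.Topology.Algebra.Polynomial

/-!
# Real embeddings of the cubic rings
-/

set_option linter.all false

namespace Vale.Agent.P246.Cyc

open Vale.Agent.P246.Q24

theorem exists_root (i : Bool) : ∃ θ : ℝ, θ * θ * θ = cP ℝ i * (θ * θ) + cQ ℝ i * θ + cR ℝ i ∧
    (bif i then (1532 / 1000 : ℝ) else 1246 / 1000) ≤ θ ∧
    θ ≤ (bif i then (1533 / 1000 : ℝ) else 1247 / 1000) := by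
  cases i
  · have hc : ContinuousOn (fun x : ℝ => x * x * x + x * x - 2 * x - 1)
        (Set.Icc (1246 / 1000) (1247 / 1000)) := by fun_prop
    have h := intermediate_value_Icc (by norm_num) hc
    obtain ⟨θ, hθ, h0⟩ := h (show (0 : ℝ) ∈ _ by constructor <;> norm_num)
    refine ⟨θ, ?_, hθ.1, hθ.2⟩
    simp only [cP_false, cQ_false, cR_false]
    linear_combination h0
  · have hc : ContinuousOn (fun x : ℝ => x * x * x - 3 * x + 1)
        (Set.Icc (1532 / 1000) (1533 / 1000)) := by fun_prop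
    have h := intermediate_value_Icc (by norm_num) hc
    obtain ⟨θ, hθ, h0⟩ := h (show (0 : ℝ) ∈ _ by constructor <;> norm_num)
    refine ⟨θ, ?_, hθ.1, hθ.2⟩
    simp only [cP_true, cQ_true, cR_true]
    linear_combination h0

/-- a real root -/
noncomputable def th (i : Bool) : ℝ := (exists_root i).choose

theorem th_spec (i : Bool) :
    th i * th i * th i = cP ℝ i * (th i * th i) + cQ ℝ i * th i + cR ℝ i :=
  (exists_root i).choose_spec.1

theorem th_lo (i : Bool) : (bif i then (1532 / 1000 : ℝ) else 1246 / 1000) ≤ th i :=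
  (exists_root i).choose_spec.2.1
theorem th_hi (i : Bool) : th i ≤ (bif i then (1533 / 1000 : ℝ) else 1247 / 1000) :=
  (exists_root i).choose_spec.2.2

/-- the first real embedding -/
noncomputable def e1 (i : Bool) : Cub ℤ i →+* ℝ := Cub.ev (Int.castRingHom ℝ) (th i) (th_spec i)
/-- the second real embedding -/
noncomputable def e2 (i : Bool) : Cub ℤ i →+* ℝ := (e1 i).comp Cub.sig
/-- the third real embedding -/
noncomputable def e3 (i : Bool) : Cub ℤ i →+* ℝ := (e1 i).comp (Cub.sig.comp Cub.sig)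

theorem e1_apply {i : Bool} (x : Cub ℤ i) :
    e1 i x = x.x0 + x.x1 * th i + x.x2 * (th i * th i) := rfl

theorem e1_C {i : Bool} (a : ℤ) : e1 i (Cub.C a) = a := by
  rw [e1_apply]; simp

theorem e_nm {i : Bool} (x : Cub ℤ i) : e1 i x * e2 i x * e3 i x = (Cub.nm x : ℤ) := by
  rw [← e1_C (i := i), ← Cub.nm_spec, map_mul, map_mul]
  rfl

theorem e_tr {i : Bool} (x : Cub ℤ i) : e1 i x + e2 i x + e3 i x = (Cub.tr x : ℤ) := by
  rw [← e1_C (i := i), ← Cub.tr_spec, map_add, map_add]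
  rfl

/-- totally non-negative elements -/
def TN {i : Bool} (x : Cub ℤ i) : Prop := 0 ≤ e1 i x ∧ 0 ≤ e2 i x ∧ 0 ≤ e3 i x

theorem TN.add {i : Bool} {x y : Cub ℤ i} (hx : TN x) (hy : TN y) : TN (x + y) :=
  ⟨by rw [map_add]; exact add_nonneg hx.1 hy.1, by rw [map_add]; exact add_nonneg hx.2.1 hy.2.1,
    by rw [map_add]; exact add_nonneg hx.2.2 hy.2.2⟩

theorem TN.mul {i : Bool} {x y : Cub ℤ i} (hx : TN x) (hy : TN y) : TN (x * y) :=
  ⟨by rw [map_mul]; exact mul_nonneg hx.1 hy.1, by rw [map_mul]; exact mul_nonneg hx.2.1 hy.2.1,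
    by rw [map_mul]; exact mul_nonneg hx.2.2 hy.2.2⟩

theorem TN_sq {i : Bool} (x : Cub ℤ i) : TN (x * x) :=
  ⟨by rw [map_mul]; exact mul_self_nonneg _, by rw [map_mul]; exact mul_self_nonneg _,
    by rw [map_mul]; exact mul_self_nonneg _⟩

theorem TN.nm_nonneg {i : Bool} {x : Cub ℤ i} (hx : TN x) : 0 ≤ Cub.nm x := by
  have h := e_nm x
  have h1 : (0 : ℝ) ≤ (Cub.nm x : ℤ) := by
    rw [← h]; exact mul_nonneg (mul_nonneg hx.1 hx.2.1) hx.2.2
  exact_mod_cast h1

theorem amgm3 {a b c : ℝ} (ha : 0 ≤ a) (hb : 0 ≤ b) (hc : 0 ≤ c) :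
    27 * (a * b * c) ≤ (a + b + c) ^ 3 := by
  nlinarith [mul_nonneg ha (sq_nonneg (b - c)), mul_nonneg hb (sq_nonneg (a - c)),
    mul_nonneg hc (sq_nonneg (a - b)), mul_nonneg ha (sq_nonneg (a - b)),
    mul_nonneg ha (sq_nonneg (a - c)), mul_nonneg hb (sq_nonneg (b - a)),
    mul_nonneg hb (sq_nonneg (b - c)), mul_nonneg hc (sq_nonneg (c - a)),
    mul_nonneg hc (sq_nonneg (c - b))]

/-- the arithmetic-geometric inequality for norm and trace -/
theorem amgm {i : Bool} {x : Cub ℤ i} (hx : TN x) : 27 * Cub.nm x ≤ Cub.tr x ^ 3 := by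
  have h := amgm3 hx.1 hx.2.1 hx.2.2
  rw [e_nm, e_tr] at h
  exact_mod_cast h

theorem TN.tr_nonneg {i : Bool} {x : Cub ℤ i} (hx : TN x) : 0 ≤ Cub.tr x := by
  have h := e_tr x
  have h1 : (0 : ℝ) ≤ (Cub.tr x : ℤ) := by
    rw [← h]; exact add_nonneg (add_nonneg hx.1 hx.2.1) hx.2.2
  exact_mod_cast h1

end Vale.Agent.P246.Cyc
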