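import Vale.Agent.P246.Cyc.GamEquiv

/-!
# Lifting units of `Dbl (Zt (Cub 𝔽_2 i)) false = GL_2(𝔽_8)`
-/

set_option linter.all false

namespace Vale.Agent.P246.Cyc

open Vale.Agent.P246.Q24

/-- `δ` lifts to a unit -/
def Lft {A C : Type} [Ring A] [Ring C] (p : A →+* C) (δ : C) : Prop :=
  ∃ ε ε' : A, ε * ε' = 1 ∧ ε' * ε = 1 ∧ p ε = δ

theorem Lft.one {A C : Type} [Ring A] [Ring C] (p : A →+* C) : Lft p 1 :=
  ⟨1, 1, mul_one _, mul_one _, map_one p⟩

theorem Lft.mul {A C : Type} [Ring A] [Ring C] {p : A →+* C} {x y : C} (hx : Lft p x)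
    (hy : Lft p y) : Lft p (x * y) := by
  obtain ⟨a, a', h1, h2, h3⟩ := hx
  obtain ⟨b, b', k1, k2, k3⟩ := hy
  refine ⟨a * b, b' * a', ?_, ?_, ?_⟩
  · rw [mul_assoc, ← mul_assoc b, k1, one_mul, h1]
  · rw [mul_assoc, ← mul_assoc a', h2, one_mul, k2]
  · rw [map_mul, h3, k3]

theorem Lft.pow {A C : Type} [Ring A] [Ring C] {p : A →+* C} {x : C} (hx : Lft p x) (n : ℕ) :
    Lft p (x ^ n) := by
  induction n with
  | zero => rw [pow_zero]; exact Lft.one p
  | succ n ih => rw [pow_succ]; exact ih.mul hx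

/-- cancelling a liftable factor on the left -/
theorem Lft.cancel {A C : Type} [Ring A] [Ring C] {p : A →+* C} {x y : C} (hx : Lft p x)
    (h : Lft p (x * y)) : Lft p y := by
  obtain ⟨a, a', h1, h2, h3⟩ := hx
  have h4 : Lft p (p a') := ⟨a', a, h2, h1, rfl⟩
  have h5 := h4.mul h
  rwa [← mul_assoc, ← h3, ← map_mul, h2, map_one, one_mul] at h5

/-- transport along an isomorphism of the source -/
theorem Lft.comp {A A' C : Type} [Ring A] [Ring A'] [Ring C] {p : A →+* C} (e : A' ≃+* A) {x : C}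
    (h : Lft p x) : Lft (p.comp e.toRingHom) x := by
  obtain ⟨a, a', h1, h2, h3⟩ := h
  refine ⟨e.symm a, e.symm a', ?_, ?_, ?_⟩
  · rw [← map_mul, h1, map_one]
  · rw [← map_mul, h2, map_one]
  · simp [h3]

namespace Gam

variable {P : Type} [CommRing P] {π : P}

/-- functoriality -/
def map {L : Type} [CommRing L] (f : P →+* L) {π' : L} (h : f π = π') : Gam P π →+* Gam L π' where
  toFun x := ⟨f x.a, f x.b, f x.c, f x.d⟩
  map_one' := by ext <;> simp
  map_zero' := by ext <;> simp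
  map_add' x y := by ext <;> simp
  map_mul' x y := by subst h; ext <;> simp

@[simp] theorem map_a {L : Type} [CommRing L] (f : P →+* L) {π' : L} (h : f π = π')
    (x : Gam P π) : (map f h x).a = f x.a := rfl
@[simp] theorem map_b {L : Type} [CommRing L] (f : P →+* L) {π' : L} (h : f π = π')
    (x : Gam P π) : (map f h x).b = f x.b := rfl
@[simp] theorem map_c {L : Type} [CommRing L] (f : P →+* L) {π' : L} (h : f π = π')
    (x : Gam P π) : (map f h x).c = f x.c := rfl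
@[simp] theorem map_d {L : Type} [CommRing L] (f : P →+* L) {π' : L} (h : f π = π')
    (x : Gam P π) : (map f h x).d = f x.d := rfl

/-- the upper transvection -/
def U (y : P) : Gam P π := ⟨1, y, 0, 1⟩
/-- the lower transvection -/
def Lo (x : P) : Gam P π := ⟨1, 0, x, 1⟩
/-- scalars -/
def S (s : P) : Gam P π := ⟨s, 0, 0, s⟩
/-- the determinant -/
def dt (x : Gam P π) : P := x.a * x.d - π * (x.b * x.c)

theorem dt_mul (x y : Gam P π) : dt (x * y) = dt x * dt y := by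
  simp [dt]; ring

theorem dt_one : dt (1 : Gam P π) = 1 := by
  simp [dt]

theorem U_inv (y : P) : (U y : Gam P π) * U (-y) = 1 := by
  ext <;> simp [U]

theorem Lo_inv (y : P) : (Lo y : Gam P π) * Lo (-y) = 1 := by
  ext <;> simp [Lo]

/-- factorisation if `c` is a unit -/
theorem fac (x : Gam P π) (hx : dt x = 1) {e : P} (he : π * x.c * e = 1) :
    x = U ((x.a - 1) * e) * Lo x.c * U ((x.d - 1) * e) := by
  simp only [dt] at hx
  ext
  · simp [U, Lo]
    linear_combination (-(x.a - 1)) * he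
  · simp [U, Lo]
    linear_combination (-x.b + (x.a - 1) * (x.d - 1) * e * (-1)) * he + (-e) * hx
  · simp [U, Lo]
  · simp [U, Lo]
    linear_combination (-(x.d - 1)) * he

end Gam

instance {A : Type} {i : Bool} [Fintype A] : Fintype (Cub A i) :=
  Fintype.ofEquiv (A × A × A) ⟨fun x => ⟨x.1, x.2.1, x.2.2⟩, fun x => (x.x0, x.x1, x.x2),
    fun _ => rfl, fun _ => rfl⟩

/-- reduction modulo two -/
def m2 (i : Bool) : Cub ℤ i →+* Cub F2 i := Cub.map zF2

theorem m2_pi (i : Bool) : m2 i (2 - eta) = 2 - eta := by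
  cases i <;> decide

/-- reduction modulo two -/
def g2 (i : Bool) : Gam (Cub ℤ i) (2 - eta) →+* Gam (Cub F2 i) (2 - eta) :=
  Gam.map (m2 i) (m2_pi i)

/-- an integral lift which is divisible by `N` -/
def lf (i : Bool) (N : ℤ) (y : Cub F2 i) : Cub ℤ i := ⟨N * y.x0.val, N * y.x1.val, N * y.x2.val⟩

theorem lf_spec (i : Bool) {N : ℤ} (hN : zF2 N = 1) (y : Cub F2 i) : m2 i (lf i N y) = y := by
  have h : ∀ z : F2, zF2 (N * z.val) = z := by
    intro z
    rw [map_mul, hN, one_mul]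
    revert z
    decide
  ext
  · exact h _
  · exact h _
  · exact h _

theorem F8_inv (i : Bool) (c : Cub F2 i) (hc : c ≠ 0) : ∃ e : Cub F2 i, (2 - eta) * c * e = 1 := by
  cases i
  · revert c; decide
  · revert c; decide

theorem F8_mul (i : Bool) (c d : Cub F2 i) (hc : c ≠ 0) (hd : d ≠ 0) : c * d ≠ 0 := by
  cases i
  · revert c d; decide
  · revert c d; decide

theorem F8_gen (i : Bool) (c : Cub F2 i) (hc : c ≠ 0) :
    ∃ k : Fin 7, ((eta : Cub F2 i) ^ 6) ^ (k : ℕ) * (eta ^ 6) ^ (k : ℕ) * c = 1 := by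
  cases i
  · revert c; decide +kernel
  · revert c; decide +kernel

section

variable {C' : Type} [Ring C'] {i : Bool} (q : Gam (Cub ℤ i) (2 - eta) →+* C') {N : ℤ}

/-- liftable with trivial image under `q` -/
def Lq (δ : Gam (Cub F2 i) (2 - eta)) : Prop := Lft ((g2 i).prod q) (δ, 1)

theorem Lq.mul {x y : Gam (Cub F2 i) (2 - eta)} (hx : Lq q x) (hy : Lq q y) : Lq q (x * y) := by
  have h := Lft.mul hx hy
  rw [Prod.mk_mul_mk, one_mul] at h
  exact h

theorem Lq.pow {x : Gam (Cub F2 i) (2 - eta)} (hx : Lq q x) (n : ℕ) : Lq q (x ^ n) := by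
  have h := Lft.pow hx n
  rw [Prod.pow_mk, one_pow] at h
  exact h

theorem Lq.cancel {x y : Gam (Cub F2 i) (2 - eta)} (hx : Lq q x) (h : Lq q (x * y)) :
    Lq q y := by
  refine Lft.cancel hx ?_
  rw [Prod.mk_mul_mk, one_mul]
  exact h

theorem q_N (hq : q (N : Gam (Cub ℤ i) (2 - eta)) = 0) (x : Gam (Cub ℤ i) (2 - eta)) :
    q (N • x) = 0 := by
  rw [zsmul_eq_mul, map_mul, hq, zero_mul]

theorem Gam_zsmul (n : ℤ) (x : Gam (Cub ℤ i) (2 - eta)) :
    n • x = (Gam.S (n : Cub ℤ i) : Gam (Cub ℤ i) (2 - eta)) * x := by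
  rw [zsmul_eq_mul]
  congr 1
  induction n with
  | zero => rw [Int.cast_zero]; ext <;> simp [Gam.S]
  | succ n ih =>
    rw [Int.cast_add, ih, Int.cast_one]
    ext <;> simp [Gam.S]
  | pred n ih =>
    rw [Int.cast_sub, ih, Int.cast_one]
    ext <;> simp [Gam.S]

theorem Lq_U (hN : zF2 N = 1) (hq : q (N : Gam (Cub ℤ i) (2 - eta)) = 0) (y : Cub F2 i) :
    Lq q (Gam.U y) := by
  refine ⟨Gam.U (lf i N y), Gam.U (-lf i N y), Gam.U_inv _, ?_, ?_⟩
  · have := Gam.U_inv (π := (2 - eta : Cub ℤ i)) (-lf i N y)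
    rwa [neg_neg] at this
  · apply Prod.ext
    · change g2 i (Gam.U (lf i N y)) = Gam.U y
      ext1
      · exact map_one (m2 i)
      · exact lf_spec i hN y
      · exact map_zero (m2 i)
      · exact map_one (m2 i)
    · change q (Gam.U (lf i N y)) = 1
      have h : (Gam.U (lf i N y) : Gam (Cub ℤ i) (2 - eta)) =
          1 + N • ⟨0, ⟨y.x0.val, y.x1.val, y.x2.val⟩, 0, 0⟩ := by
        rw [Gam_zsmul]
        ext <;> simp [Gam.S, Gam.U, lf]
      rw [h, map_add, map_one, q_N q hq, add_zero]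

theorem Lq_Lo (hN : zF2 N = 1) (hq : q (N : Gam (Cub ℤ i) (2 - eta)) = 0) (y : Cub F2 i) :
    Lq q (Gam.Lo y) := by
  refine ⟨Gam.Lo (lf i N y), Gam.Lo (-lf i N y), Gam.Lo_inv _, ?_, ?_⟩
  · have := Gam.Lo_inv (π := (2 - eta : Cub ℤ i)) (-lf i N y)
    rwa [neg_neg] at this
  · apply Prod.ext
    · change g2 i (Gam.Lo (lf i N y)) = Gam.Lo y
      ext1
      · exact map_one (m2 i)
      · exact map_zero (m2 i)
      · exact lf_spec i hN y
      · exact map_one (m2 i)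
    · change q (Gam.Lo (lf i N y)) = 1
      have h : (Gam.Lo (lf i N y) : Gam (Cub ℤ i) (2 - eta)) =
          1 + N • ⟨0, 0, ⟨y.x0.val, y.x1.val, y.x2.val⟩, 0⟩ := by
        rw [Gam_zsmul]
        ext <;> simp [Gam.S, Gam.Lo, lf]
      rw [h, map_add, map_one, q_N q hq, add_zero]

/-- the inverse of `η` -/
def ei (i : Bool) : Cub ℤ i := bif i then ⟨3, 0, -1⟩ else ⟨-2, 1, 1⟩

theorem ei_spec (i : Bool) : eta * ei i = 1 := by
  cases i
  · decide
  · decide

theorem m2_eta (i : Bool) : m2 i eta = eta := by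
  cases i
  · decide
  · decide

theorem Gam.S_mul {P : Type} [CommRing P] {π : P} (x y : P) :
    (Gam.S x : Gam P π) * Gam.S y = Gam.S (x * y) := by
  ext <;> simp [Gam.S]

theorem Gam.S_one {P : Type} [CommRing P] {π : P} : (Gam.S 1 : Gam P π) = 1 := rfl

theorem Gam.S_pow {P : Type} [CommRing P] {π : P} (x : P) (n : ℕ) :
    (Gam.S x : Gam P π) ^ n = Gam.S (x ^ n) := by
  induction n with
  | zero => rw [pow_zero, pow_zero]; rfl
  | succ n ih => rw [pow_succ, ih, Gam.S_mul, pow_succ]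

theorem Gam.S_dt {P : Type} [CommRing P] {π : P} (x : P) : (Gam.S x : Gam P π).dt = x * x := by
  simp [Gam.S, Gam.dt]

theorem Lq_S (hη : q (Gam.S eta) ^ 6 = 1) : Lq q (Gam.S (eta ^ 6)) := by
  refine ⟨Gam.S (eta ^ 6), Gam.S (ei i ^ 6), ?_, ?_, ?_⟩
  · rw [Gam.S_mul, ← mul_pow, ei_spec, one_pow, Gam.S_one]
  · rw [Gam.S_mul, ← mul_pow, mul_comm, ei_spec, one_pow, Gam.S_one]
  · apply Prod.ext
    · change g2 i (Gam.S (eta ^ 6)) = Gam.S (eta ^ 6)
      have h : m2 i (eta ^ 6) = eta ^ 6 := by rw [map_pow, m2_eta]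
      ext1
      · exact h
      · exact map_zero (m2 i)
      · exact map_zero (m2 i)
      · exact h
    · change q (Gam.S (eta ^ 6)) = 1
      rw [← Gam.S_pow, map_pow, hη]

theorem Lq_dt (hN : zF2 N = 1) (hq : q (N : Gam (Cub ℤ i) (2 - eta)) = 0)
    (x : Gam (Cub F2 i) (2 - eta)) (hx : x.dt = 1) : Lq q x := by
  have key : ∀ x : Gam (Cub F2 i) (2 - eta), x.dt = 1 → x.c ≠ 0 → Lq q x := by
    intro x hx hc
    obtain ⟨e, he⟩ := F8_inv i x.c hc
    rw [Gam.fac x hx he]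
    exact (((Lq_U q hN hq _).mul q (Lq_Lo q hN hq _)).mul q (Lq_U q hN hq _))
  by_cases hc : x.c = 0
  · refine Lq.cancel q (Lq_Lo q hN hq 1) (key _ ?_ ?_)
    · rw [Gam.dt_mul, hx, mul_one]
      simp [Gam.dt, Gam.Lo]
    · have h1 : (Gam.Lo 1 * x).c = x.a := by simp [Gam.Lo, hc]
      rw [h1]
      intro h2
      rw [Gam.dt, hc, h2] at hx
      simp at hx
      have h3 := congrArg Cub.x0 hx
      have h4 : (0 : F2) = 1 := h3
      exact absurd h4 (by decide)
  · exact key x hx hc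

/-- every unit lifts to a unit which is trivial under `q` -/
theorem Lq_all (hN : zF2 N = 1) (hq : q (N : Gam (Cub ℤ i) (2 - eta)) = 0)
    (hη : q (Gam.S eta) ^ 6 = 1) (x x' : Gam (Cub F2 i) (2 - eta)) (h : x * x' = 1) : Lq q x := by
  have h1 : x.dt * x'.dt = 1 := by rw [← Gam.dt_mul, h, Gam.dt_one]
  have h2 : x.dt ≠ 0 := by
    intro h0
    rw [h0, zero_mul] at h1
    have h3 := congrArg Cub.x0 h1
    have h4 : (0 : F2) = 1 := h3
    exact absurd h4 (by decide)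
  obtain ⟨k, hk⟩ := F8_gen i _ h2
  refine Lq.cancel q ((Lq_S q hη).pow q (k : ℕ)) (Lq_dt q hN hq _ ?_)
  rw [Gam.dt_mul, Gam.S_pow, Gam.S_dt, hk]

end

/-- reduction modulo two -/
def r2 (i : Bool) : Dbl (Zt (Cub ℤ i)) false →+* Dbl (Zt (Cub F2 i)) false :=
  Dbl.map (Zt.map (Cub.map zF2) (Cub.map_eta _)) (Zt.map_conj _ _)

/-- the inverse of `2 + η` modulo two -/
theorem ie2_spec (i : Bool) : (2 + eta) * m2 i (ie i) = 1 := by
  cases i
  · decide
  · decide

/-- `gamEquiv` over the integers -/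
def gZ (i : Bool) : Dbl (Zt (Cub ℤ i)) false ≃+* Gam (Cub ℤ i) (2 - eta) :=
  gamEquiv (ie i) (ie_spec i)
/-- `gamEquiv` modulo two -/
def gF (i : Bool) : Dbl (Zt (Cub F2 i)) false ≃+* Gam (Cub F2 i) (2 - eta) :=
  gamEquiv (m2 i (ie i)) (ie2_spec i)

theorem gF_r2 (i : Bool) (x : Dbl (Zt (Cub ℤ i)) false) : gF i (r2 i x) = g2 i (gZ i x) := by
  have h := m2_pi i
  have e1 : ∀ z : Zt (Cub ℤ i), (Zt.map (Cub.map zF2) (Cub.map_eta _) z : Zt (Cub F2 i)).re =
    m2 i z.re := fun _ => rfl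
  have e2 : ∀ z : Zt (Cub ℤ i), (Zt.map (Cub.map zF2) (Cub.map_eta _) z : Zt (Cub F2 i)).im =
    m2 i z.im := fun _ => rfl
  ext1
  · change m2 i x.fst.re + m2 i x.fst.im + m2 i x.snd.re + m2 i x.snd.im = m2 i (_ + _ + _ + _)
    rw [map_add, map_add, map_add]
  · change m2 i x.snd.re + m2 i x.fst.im = m2 i (_ + _)
    rw [map_add]
  · change -m2 i x.fst.im - m2 i x.snd.im = m2 i (-_ - _)
    rw [map_sub, map_neg]
  · change m2 i x.fst.re + m2 i x.fst.im - (2 - eta) * m2 i x.fst.im - m2 i x.snd.re -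
      m2 i x.snd.im = m2 i (_ + _ - _ * _ - _ - _)
    rw [map_sub, map_sub, map_sub, map_add, map_mul, h]

/-- every unit of `Dbl (Zt (Cub 𝔽_2 i)) false` lifts to a unit which is trivial under `q` -/
theorem lft2 (i : Bool) {C' : Type} [Ring C'] (q : Dbl (Zt (Cub ℤ i)) false →+* C') {N : ℤ}
    (hN : zF2 N = 1) (hq : q (N : Dbl (Zt (Cub ℤ i)) false) = 0)
    (hη : q (Dbl.C (Zt.C eta)) ^ 6 = 1) (δ δ' : Dbl (Zt (Cub F2 i)) false) (h : δ * δ' = 1) :
    Lft ((r2 i).prod q) (δ, 1) := by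
  have hS : (gZ i).symm (Gam.S eta) = Dbl.C (Zt.C eta) := by
    rw [RingEquiv.symm_apply_eq]
    ext1
    · change eta = eta + 0 + 0 + 0
      ring
    · change (0 : Cub ℤ i) = 0 + 0
      ring
    · change (0 : Cub ℤ i) = -0 - 0
      ring
    · change eta = eta + 0 - (2 - eta) * 0 - 0 - 0
      ring
  obtain ⟨ε, ε', h1, h2, h3⟩ := Lq_all (q.comp (gZ i).symm.toRingHom) (N := N) hN
    (by
      change q ((gZ i).symm (N : Gam (Cub ℤ i) (2 - eta))) = 0
      rw [map_intCast, hq])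
    (by
      change q ((gZ i).symm (Gam.S eta)) ^ 6 = 1
      rw [hS, hη])
    (gF i δ) (gF i δ') (by rw [← map_mul, h, map_one])
  refine ⟨(gZ i).symm ε, (gZ i).symm ε', ?_, ?_, ?_⟩
  · rw [← map_mul, h1, map_one]
  · rw [← map_mul, h2, map_one]
  · apply Prod.ext
    · change r2 i ((gZ i).symm ε) = δ
      apply (gF i).injective
      rw [gF_r2, RingEquiv.apply_symm_apply]
      exact congrArg Prod.fst h3
    · have h4 := congrArg Prod.snd h3
      exact h4

end Vale.Agent.P246.Cyc
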