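import Vale.Agent.P246.Cyc.Base

/-!
# Galois action, norm and trace on the cubic rings
-/

set_option linter.all false

namespace Vale.Agent.P246.Cyc

open Vale.Agent.P246.Q24

variable {A : Type} [CommRing A] {i : Bool}

namespace Cub

/-- constants -/
def C : A →+* Cub A i where
  toFun := fun a => ⟨a, 0, 0⟩
  map_one' := rfl
  map_zero' := rfl
  map_add' := fun x y => by ext <;> simp
  map_mul' := fun x y => by ext <;> simp

@[simp] theorem C_x0 (a : A) : (C a : Cub A i).x0 = a := rfl
@[simp] theorem C_x1 (a : A) : (C a : Cub A i).x1 = 0 := rfl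
@[simp] theorem C_x2 (a : A) : (C a : Cub A i).x2 = 0 := rfl

theorem C_inj {a b : A} (h : (C a : Cub A i) = C b) : a = b := congrArg Cub.x0 h

/-- the Galois automorphism `η ↦ η² - 2` -/
def sig : Cub A i →+* Cub A i where
  toFun := fun x => ⟨x.x0 - 2 * x.x1 + (4 + cS A i) * x.x2, -x.x2, x.x1 - x.x2⟩
  map_one' := by ext <;> simp
  map_zero' := by ext <;> simp
  map_add' := fun x y => by ext <;> simp <;> ring
  map_mul' := fun x y => by cases i <;> ext <;> simp <;> ring

@[simp] theorem sig_x0 (x : Cub A i) :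
    (sig x).x0 = x.x0 - 2 * x.x1 + (4 + cS A i) * x.x2 := rfl
@[simp] theorem sig_x1 (x : Cub A i) : (sig x).x1 = -x.x2 := rfl
@[simp] theorem sig_x2 (x : Cub A i) : (sig x).x2 = x.x1 - x.x2 := rfl

theorem sig_C (a : A) : sig (C a : Cub A i) = C a := by ext <;> simp

theorem sig3 (x : Cub A i) : sig (sig (sig x)) = x := by
  cases i <;> ext <;> simp <;> ring

/-- the norm -/
def nm (x : Cub A i) : A := (x * sig x * sig (sig x)).x0

/-- the trace -/
def tr (x : Cub A i) : A := (x + sig x + sig (sig x)).x0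

theorem nm_spec (x : Cub A i) : x * sig x * sig (sig x) = C (nm x) := by
  cases i <;> ext
  · rfl
  · simp; ring
  · simp; ring
  · rfl
  · simp; ring
  · simp; ring

theorem tr_spec (x : Cub A i) : x + sig x + sig (sig x) = C (tr x) := by
  cases i <;> ext
  · rfl
  · simp; ring
  · simp; ring
  · rfl
  · simp; ring
  · simp; ring

theorem nm_mul (x y : Cub A i) : nm (x * y) = nm x * nm y := by
  apply C_inj (i := i)
  rw [map_mul, ← nm_spec, ← nm_spec, ← nm_spec, map_mul, map_mul]
  ring

theorem nm_C (a : A) : nm (C a : Cub A i) = a * a * a := by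
  apply C_inj (i := i)
  rw [← nm_spec, sig_C, sig_C, map_mul, map_mul]

theorem nm_one : nm (1 : Cub A i) = 1 := by
  rw [← map_one (C (A := A) (i := i)), nm_C]
  ring

theorem nm_neg (x : Cub A i) : nm (-x) = -nm x := by
  apply C_inj (i := i)
  rw [map_neg, ← nm_spec, ← nm_spec, map_neg, map_neg]
  ring

theorem nm_sig (x : Cub A i) : nm (sig x) = nm x := by
  apply C_inj (i := i)
  rw [← nm_spec, ← nm_spec, sig3]
  ring

theorem tr_add (x y : Cub A i) : tr (x + y) = tr x + tr y := by
  apply C_inj (i := i)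
  rw [map_add, ← tr_spec, ← tr_spec, ← tr_spec, map_add, map_add]
  ring

theorem map_sig {B : Type} [CommRing B] (f : A →+* B) (x : Cub A i) :
    map f (sig x) = sig (map f x) := by
  have h2 : f 2 = 2 := map_ofNat f 2
  have h4 : f 4 = 4 := map_ofNat f 4
  ext <;> simp [h2, h4]

theorem map_nm {B : Type} [CommRing B] (f : A →+* B) (x : Cub A i) :
    nm (map f x) = f (nm x) := by
  rw [nm, ← map_sig, ← map_sig, ← map_mul, ← map_mul]
  rfl

end Cub

end Vale.Agent.P246.Cyc
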