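import Vale.Agent.P246.Cyc.Ab
import Vale.Agent.P246.Cyc.Cover

/-!
# Arithmetic of `ℤ[ζ_7]`: division with small remainder
-/

set_option linter.all false

namespace Vale.Agent.P246.Cyc

open Vale.Agent.P246.Q24

/-- the cubic ring for `ζ_7` -/
abbrev K7 : Type := Cub ℤ false
/-- `ℤ[ζ_7]` -/
abbrev S7 : Type := Zt K7

/-- `∑ x_i ζ^i` -/
def cyc (x : Fin 7 → ℤ) : S7 :=
  ⟨⟨x 0 - x 2 + x 4 - x 5, -x 3 + x 6, -x 4 + x 5⟩,
   ⟨x 1 - x 3 + x 4 - x 6, x 2 - x 5, x 3 - x 4⟩⟩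

/-- the coordinates -/
def coo (z : S7) : Fin 7 → ℤ :=
  ![z.re.x0 + z.im.x1 + 2 * z.re.x2 - z.re.x1 - z.im.x2, z.im.x0 + z.im.x2,
    z.im.x1 + z.re.x2 - z.re.x1 - z.im.x2, -z.re.x1, -z.re.x1 - z.im.x2,
    z.re.x2 - z.re.x1 - z.im.x2, 0]

theorem cyc_coo (z : S7) : cyc (coo z) = z := by
  ext
  · change coo z 0 - coo z 2 + coo z 4 - coo z 5 = _
    simp [coo]; ring
  · change -coo z 3 + coo z 6 = _
    simp [coo]
  · change -coo z 4 + coo z 5 = _
    simp [coo]; ring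
  · change coo z 1 - coo z 3 + coo z 4 - coo z 6 = _
    simp [coo]; ring
  · change coo z 2 - coo z 5 = _
    simp [coo]
  · change coo z 3 - coo z 4 = _
    simp [coo]

theorem tr_cyc (x : Fin 7 → ℤ) : 2 * Cub.tr (Zt.ab (cyc x)) =
    7 * ∑ i, x i ^ 2 - (∑ i, x i) ^ 2 := by
  simp only [Fin.sum_univ_succ, Cub.tr, Zt.ab, cyc]
  simp
  ring

theorem cyc_sub (x y : Fin 7 → ℤ) : cyc (fun i => x i - y i) = cyc x - cyc y := by
  ext <;> simp [cyc] <;> ring

theorem cyc_mul (x : Fin 7 → ℤ) (m : ℤ) : cyc (fun i => m * x i) = Zt.C (Cub.C m) * cyc x := by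
  ext <;> simp [cyc] <;> ring

/-- division with small remainder, in terms of the trace -/
theorem div7 (z : S7) (n : ℕ) (hn : 0 < n) : ∃ q : S7,
    24 * Cub.tr (Zt.ab (z - Zt.C (Cub.C (n : ℤ)) * q)) ≤ 49 * ((n : ℤ) ^ 2 - 1) := by
  obtain ⟨y, h1, h2⟩ := lenstra (coo z) n hn
  choose q hq using h1
  refine ⟨cyc q, ?_⟩
  have h3 : z - Zt.C (Cub.C (n : ℤ)) * cyc q = cyc y := by
    rw [← cyc_mul]
    conv_lhs => rw [← cyc_coo z]
    rw [← cyc_sub]
    congr 1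
    funext i
    have := hq i
    linarith
  rw [h3]
  have h4 := tr_cyc y
  simp only [Fintype.card_fin] at h2
  have h5 : ((7 : ℕ) : ℤ) = 7 := rfl
  rw [h5] at h2
  linarith

/-- norm comparison from a trace bound -/
theorem nm_lt_of_tr {v : K7} (hv : TN v) {m : ℤ} (hm : 0 ≤ m) (h : Cub.tr v < 3 * m) :
    Cub.nm v < m ^ 3 := by
  have h1 := amgm hv
  have h2 := hv.tr_nonneg
  have h3 : Cub.tr v ^ 3 < (3 * m) ^ 3 := pow_lt_pow_left₀ h h2 (by norm_num)
  nlinarith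

theorem euclid7 (α w : S7) (hw : w ≠ 0) : ∃ q, nn (α - q * w) < nn w := by
  have hm := nn_pos hw
  obtain ⟨n, hn⟩ : ∃ n : ℕ, (n : ℤ) = nn w := ⟨(nn w).toNat, Int.toNat_of_nonneg hm.le⟩
  have hn0 : 0 < n := by
    have : (0 : ℤ) < n := by rw [hn]; exact hm
    exact_mod_cast this
  obtain ⟨q, hq⟩ := div7 (α * cof w) n hn0
  rw [hn] at hq
  refine ⟨q, ?_⟩
  have h1 : α * cof w - Zt.C (Cub.C (nn w)) * q = (α - q * w) * cof w := by
    rw [← mul_cof]; ring
  rw [h1] at hq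
  have h2 : Cub.nm (Zt.ab ((α - q * w) * cof w)) < (nn w ^ 2) ^ 3 := by
    apply nm_lt_of_tr (TN_ab _) (by positivity)
    nlinarith
  change nn ((α - q * w) * cof w) < _ at h2
  rw [nn_mul, nn_cof] at h2
  have h3 : (nn w ^ 2) ^ 3 = nn w * nn w ^ 5 := by ring
  rw [h3] at h2
  exact lt_of_mul_lt_mul_right h2 (by positivity)

/-! ### reduction by units -/

/-- the inverse of `η` -/
def kap : K7 := ⟨-2, 1, 1⟩

theorem kap_spec : eta * kap = 1 := by decide

theorem nm_kap : Cub.nm kap = 1 := by decide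

theorem e1_kap : e1 false kap * th false = 1 := by
  have h := congrArg (e1 false) kap_spec
  rw [map_mul, map_one, e1_apply] at h
  simp at h
  linarith

theorem e_eta2 : e2 false eta = th false * th false - 2 := by
  change e1 false (Cub.sig eta) = _
  rw [e1_apply]; simp; ring

theorem e_eta3 : e3 false eta = (th false * th false - 2) * (th false * th false - 2) - 2 := by
  have h4 : (Cub.sig (Cub.sig eta) : K7) = Cub.sig eta * Cub.sig eta - 2 := by decide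
  change e1 false (Cub.sig (Cub.sig eta)) = _
  rw [h4, map_sub, map_mul]
  have h5 : e1 false 2 = 2 := map_ofNat _ 2
  rw [h5]
  change e2 false eta * e2 false eta - 2 = _
  rw [e_eta2]

/-- numerical bounds: `e1 kap² ≈ 0.6431`, `e2 kap² ≈ 5.0489`, `e3 kap² ≈ 0.3080` -/
theorem kap_bds : (0.64 ≤ e1 false (kap * kap) ∧ e1 false (kap * kap) ≤ 0.65) ∧
    (4.9 ≤ e2 false (kap * kap) ∧ e2 false (kap * kap) ≤ 5.1) ∧
    (0.30 ≤ e3 false (kap * kap) ∧ e3 false (kap * kap) ≤ 0.31) := by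
  have h4 := th_lo false
  have h5 := th_hi false
  simp only [cond_false] at h4 h5
  have k2 : e2 false kap * e2 false eta = 1 := by
    have h := congrArg (e2 false) kap_spec
    rw [map_mul, map_one] at h
    linarith
  have k3 : e3 false kap * e3 false eta = 1 := by
    have h := congrArg (e3 false) kap_spec
    rw [map_mul, map_one] at h
    linarith
  have k1 := e1_kap
  rw [map_mul, map_mul, map_mul]
  rw [e_eta2] at k2
  rw [e_eta3] at k3
  generalize th false = t at *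
  generalize e1 false kap = a at *
  generalize e2 false kap = b at *
  generalize e3 false kap = c at *
  have a1 : (1246 / 1000 : ℝ) * (1246 / 1000) ≤ t * t := mul_self_le_mul_self (by norm_num) h4
  have a2 : t * t ≤ (1247 / 1000 : ℝ) * (1247 / 1000) := mul_self_le_mul_self (by linarith) h5
  set s := t * t with hs
  -- squares of `η` conjugates
  have b1 : (0.4449 : ℝ) * 0.4449 ≤ (2 - s) * (2 - s) :=
    mul_self_le_mul_self (by norm_num) (by norm_num at a2 ⊢; linarith)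
  have b2 : (2 - s) * (2 - s) ≤ (0.4475 : ℝ) * 0.4475 :=
    mul_self_le_mul_self (by norm_num at a2 ⊢; linarith) (by norm_num at a1 ⊢; linarith)
  have c1 : (1.7997 : ℝ) * 1.7997 ≤ (2 - (s - 2) * (s - 2)) * (2 - (s - 2) * (s - 2)) :=
    mul_self_le_mul_self (by norm_num) (by norm_num at b2 ⊢; nlinarith)
  have c2 : (2 - (s - 2) * (s - 2)) * (2 - (s - 2) * (s - 2)) ≤ (1.8022 : ℝ) * 1.8022 :=
    mul_self_le_mul_self (by norm_num at b2 ⊢; nlinarith) (by norm_num at b1 ⊢; nlinarith)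
  have p1 : (a * a) * s = 1 := by rw [hs]; linear_combination (a * t + 1) * k1
  have p2 : (b * b) * ((2 - s) * (2 - s)) = 1 := by
    linear_combination (b * (s - 2) + 1) * k2
  have p3 : (c * c) * ((2 - (s - 2) * (s - 2)) * (2 - (s - 2) * (s - 2))) = 1 := by
    linear_combination (c * ((s - 2) * (s - 2) - 2) + 1) * k3
  have q1 := mul_self_nonneg a
  have q2 := mul_self_nonneg b
  have q3 := mul_self_nonneg c
  refine ⟨⟨?_, ?_⟩, ⟨?_, ?_⟩, ⟨?_, ?_⟩⟩
  · nlinarith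
  · nlinarith
  · nlinarith
  · nlinarith
  · nlinarith
  · nlinarith

theorem cone {a b c : ℝ} (ha : 0 ≤ a) (hb : 0 ≤ b) (hc : 0 ≤ c)
    (h1 : 0.35 * a + 0.69 * c ≤ 4.1 * b) (h2 : 0.69 * b + 0.35 * c ≤ 4.1 * a)
    (h3 : 0.69 * a + 0.35 * b ≤ 4.1 * c) : (a + b + c) ^ 3 ≤ 140 * (a * b * c) := by
  have s1 := sub_nonneg.2 h1
  have s2 := sub_nonneg.2 h2
  have s3 := sub_nonneg.2 h3
  nlinarith [mul_nonneg (mul_nonneg s1 s1) s1, mul_nonneg (mul_nonneg s1 s1) s2,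
    mul_nonneg (mul_nonneg s1 s1) s3, mul_nonneg (mul_nonneg s1 s2) s2,
    mul_nonneg (mul_nonneg s1 s2) s3, mul_nonneg (mul_nonneg s1 s3) s3,
    mul_nonneg (mul_nonneg s2 s2) s2, mul_nonneg (mul_nonneg s2 s2) s3,
    mul_nonneg (mul_nonneg s2 s3) s3, mul_nonneg (mul_nonneg s3 s3) s3]

theorem e2_sig (x : K7) : e2 false (Cub.sig x) = e3 false x := rfl
theorem e1_sig (x : K7) : e1 false (Cub.sig x) = e2 false x := rfl
theorem e3_sig (x : K7) : e3 false (Cub.sig x) = e1 false x := by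
  change e1 false (Cub.sig (Cub.sig (Cub.sig x))) = _
  rw [Cub.sig3]

/-- reduction of the trace by squares of units -/
theorem reduce7 : ∀ (k : ℕ) (v : K7), TN v → (Cub.tr v).toNat ≤ k →
    ∃ ε : K7, Cub.nm ε = 1 ∧ Cub.tr (ε * ε * v) ^ 3 ≤ 140 * Cub.nm v := by
  intro k
  induction k with
  | zero =>
    intro v hv hk
    refine ⟨1, Cub.nm_one, ?_⟩
    have h1 := hv.tr_nonneg
    have h2 : Cub.tr v = 0 := by omega
    rw [mul_one, one_mul, h2]
    have := hv.nm_nonneg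
    norm_num
    linarith
  | succ k ih =>
    intro v hv hk
    have step : ∀ u : K7, Cub.nm u = 1 → Cub.tr (u * u * v) < Cub.tr v →
        ∃ ε : K7, Cub.nm ε = 1 ∧ Cub.tr (ε * ε * v) ^ 3 ≤ 140 * Cub.nm v := by
      intro u hu hlt
      have hw : TN (u * u * v) := (TN_sq u).mul hv
      have h0 := hw.tr_nonneg
      obtain ⟨ε, h1, h2⟩ := ih (u * u * v) hw (by omega)
      refine ⟨ε * u, by rw [Cub.nm_mul, h1, hu, one_mul], ?_⟩
      rw [Cub.nm_mul, Cub.nm_mul, hu, one_mul, one_mul] at h2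
      have : ε * u * (ε * u) * v = ε * ε * (u * u * v) := by ring
      rw [this]
      exact h2
    by_cases c1 : Cub.tr (kap * kap * v) < Cub.tr v
    · exact step kap nm_kap c1
    by_cases c2 : Cub.tr (Cub.sig kap * Cub.sig kap * v) < Cub.tr v
    · exact step _ (by rw [Cub.nm_sig, nm_kap]) c2
    by_cases c3 : Cub.tr (Cub.sig (Cub.sig kap) * Cub.sig (Cub.sig kap) * v) < Cub.tr v
    · exact step _ (by rw [Cub.nm_sig, Cub.nm_sig, nm_kap]) c3
    refine ⟨1, Cub.nm_one, ?_⟩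
    rw [mul_one, one_mul]
    rw [not_lt] at c1 c2 c3
    have d1 : ((Cub.tr v : ℤ) : ℝ) ≤ (Cub.tr (kap * kap * v) : ℤ) := by exact_mod_cast c1
    have d2 : ((Cub.tr v : ℤ) : ℝ) ≤ (Cub.tr (Cub.sig kap * Cub.sig kap * v) : ℤ) := by
      exact_mod_cast c2
    have d3 : ((Cub.tr v : ℤ) : ℝ) ≤
        (Cub.tr (Cub.sig (Cub.sig kap) * Cub.sig (Cub.sig kap) * v) : ℤ) := by
      exact_mod_cast c3
    obtain ⟨⟨l1, u1⟩, ⟨l2, u2⟩, ⟨l3, u3⟩⟩ := kap_bds
    rw [← map_mul] at d2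
    rw [← map_mul, ← map_mul] at d3
    rw [← e_tr, ← e_tr, map_mul _ _ v, map_mul _ _ v, map_mul _ _ v] at d1 d2 d3
    rw [e1_sig, e2_sig, e3_sig] at d2
    rw [e1_sig, e2_sig, e3_sig, e2_sig, e3_sig, e1_sig] at d3
    have key := cone hv.1 hv.2.1 hv.2.2 (by nlinarith [hv.1, hv.2.1, hv.2.2])
      (by nlinarith [hv.1, hv.2.1, hv.2.2]) (by nlinarith [hv.1, hv.2.1, hv.2.2])
    rw [e_tr, e_nm] at key
    exact_mod_cast key

end Vale.Agent.P246.Cyc
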