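import Vale.Agent.P246.Cyc.Z7

/-!
# Transitivity for `ℤ[ζ_7, j]`
-/

set_option linter.all false

namespace Vale.Agent.P246.Cyc

open Vale.Agent.P246.Q24

instance : Nontrivial S7 := ⟨0, 1, by decide⟩

theorem sum_form (x η : S7) : x * conj x + η * conj η = Zt.C (Zt.ab x + Zt.ab η) := by
  rw [Zt.mul_conj, Zt.mul_conj, map_add]

theorem nn_sum_lt {x η : S7} {m : ℤ} (h : Cub.nm (Zt.ab x + Zt.ab η) < m) :
    nn (x * conj x + η * conj η) < m * m := by
  rw [sum_form, nn_C]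
  have h0 : 0 ≤ Cub.nm (Zt.ab x + Zt.ab η) := ((TN_ab x).add (TN_ab η)).nm_nonneg
  exact mul_self_lt_mul_self h0 h

theorem TN_sig {v : K7} (hv : TN v) : TN (Cub.sig v) := by
  refine ⟨?_, ?_, ?_⟩
  · rw [e1_sig]; exact hv.2.1
  · rw [e2_sig]; exact hv.2.2
  · rw [e3_sig]; exact hv.1

theorem tr_C_mul (m : ℤ) (v : K7) : Cub.tr (Cub.C m * v) = m * Cub.tr v := by
  simp [Cub.tr]; ring

theorem arith7 {m t T : ℤ} (hm : 169 ≤ m) (ht : t ^ 3 ≤ 140 * m ^ 2)
    (hT : 24 * T ≤ 49 * (m ^ 2 - 1)) : T + m * t < 3 * m ^ 2 := by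
  have h1 : 24 * t < 23 * m := by
    by_contra hcon
    have h2 : 23 * m ≤ 24 * t := not_lt.1 hcon
    have h3 : (23 * m) ^ 3 ≤ (24 * t) ^ 3 := pow_le_pow_left₀ (by positivity) h2 3
    have h4 : 0 < m ^ 2 := by positivity
    nlinarith
  have h2 : m * (24 * t) < m * (23 * m) := mul_lt_mul_of_pos_left h1 (by linarith)
  nlinarith

theorem large7 (w : S7) (hB : 169 ≤ nn w) : ∃ η : S7, η ≠ 0 ∧ ∀ α, ∃ q,
    nn ((α - q * w) * conj (α - q * w) + η * conj η) < nn w * nn w := by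
  have hm : 0 < nn w := by linarith
  have hv : TN (Cub.sig (Zt.ab w) * Cub.sig (Cub.sig (Zt.ab w))) :=
    (TN_sig (TN_ab w)).mul (TN_sig (TN_sig (TN_ab w)))
  obtain ⟨ε, h1, h2⟩ := reduce7 _ _ hv le_rfl
  have h3 : Cub.nm (Cub.sig (Zt.ab w) * Cub.sig (Cub.sig (Zt.ab w))) = nn w ^ 2 := by
    rw [Cub.nm_mul, Cub.nm_sig, Cub.nm_sig, Cub.nm_sig, sq]
    rfl
  rw [h3] at h2
  refine ⟨Zt.C ε, ?_, ?_⟩
  · intro h0
    have h4 : ε = 0 := Zt.C_inj (h0.trans (map_zero _).symm)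
    rw [h4] at h1
    exact absurd h1 (by decide)
  · intro α
    obtain ⟨n, hn⟩ : ∃ n : ℕ, (n : ℤ) = nn w := ⟨(nn w).toNat, Int.toNat_of_nonneg hm.le⟩
    have hn0 : 0 < n := by
      have : (0 : ℤ) < n := by rw [hn]; exact hm
      exact_mod_cast this
    obtain ⟨q, hq⟩ := div7 (α * cof w) n hn0
    rw [hn] at hq
    refine ⟨q, nn_sum_lt ?_⟩
    have h5 : α * cof w - Zt.C (Cub.C (nn w)) * q = (α - q * w) * cof w := by
      rw [← mul_cof]; ring
    rw [h5] at hq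
    have h6 : (Zt.ab (α - q * w) + Zt.ab (Zt.C ε)) * Zt.ab (cof w) =
        Zt.ab ((α - q * w) * cof w) + Cub.C (nn w) *
          (ε * ε * (Cub.sig (Zt.ab w) * Cub.sig (Cub.sig (Zt.ab w)))) := by
      rw [add_mul, ← Zt.ab_mul, Zt.ab_C, ab_cof]
      ring
    have h7 : Cub.tr ((Zt.ab (α - q * w) + Zt.ab (Zt.C ε)) * Zt.ab (cof w)) <
        3 * nn w ^ 2 := by
      rw [h6, Cub.tr_add, tr_C_mul]
      exact arith7 hB h2 hq
    have h8 := nm_lt_of_tr (((TN_ab (α - q * w)).add (TN_ab (Zt.C ε))).mul (TN_ab (cof w)))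
      (by positivity) h7
    rw [Cub.nm_mul] at h8
    change _ * nn (cof w) < _ at h8
    rw [nn_cof] at h8
    have h9 : (nn w ^ 2) ^ 3 = nn w * nn w ^ 5 := by ring
    rw [h9] at h8
    exact lt_of_mul_lt_mul_right h8 (by positivity)

theorem two7 (w e e' : S7) (hee : e * e' = 1) (hw : w = 2 * e) : ∃ η : S7, η ≠ 0 ∧ ∀ α, ∃ q,
    nn ((α - q * w) * conj (α - q * w) + η * conj η) < nn w * nn w := by
  refine ⟨1, one_ne_zero, fun α => ?_⟩
  obtain ⟨q, hq⟩ := div7 α 2 (by norm_num)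
  refine ⟨q * e', ?_⟩
  have h1 : α - q * e' * w = α - Zt.C (Cub.C ((2 : ℕ) : ℤ)) * q := by
    have h2 : (Zt.C (Cub.C ((2 : ℕ) : ℤ)) : S7) = 2 := by decide
    rw [hw, h2]
    linear_combination (-2 * q) * hee
  have h3 : nn w = 64 := by
    have h4 : nn e * nn e' = 1 := by
      rw [← nn_mul, hee]; decide
    have h5 : nn e = 1 := by
      rcases Int.isUnit_iff.1 (IsUnit.of_mul_eq_one _ h4) with h | h
      · exact h
      · have := nn_nonneg e
        linarith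
    have h6 : nn (2 : S7) = 64 := by decide
    rw [hw, nn_mul, h5, h6]; norm_num
  rw [h1, h3]
  apply nn_sum_lt
  have h4 : Cub.tr (Zt.ab (1 : S7)) = 3 := by decide
  have h5 : Cub.tr (Zt.ab (α - Zt.C (Cub.C ((2 : ℕ) : ℤ)) * q) + Zt.ab (1 : S7)) < 3 * 4 := by
    rw [Cub.tr_add, h4]
    push_cast at hq ⊢
    omega
  have h6 := nm_lt_of_tr ((TN_ab (α - Zt.C (Cub.C ((2 : ℕ) : ℤ)) * q)).add (TN_ab (1 : S7)))
    (by norm_num) h5
  norm_num at h6 ⊢
  exact h6

/-! ### reduction modulo `1 - ζ` -/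

/-- reduction modulo `2 - η` -/
def rho7 : K7 →+* ZMod 7 := Cub.ev (Int.castRingHom (ZMod 7)) 2 (by decide)

theorem rho7_eta : rho7 eta = 2 := by decide

theorem rho7_sig (x : K7) : rho7 (Cub.sig x) = rho7 x := by
  have h7 : (7 : ZMod 7) = 0 := rfl
  simp [rho7]
  linear_combination (-(x.x2 : ZMod 7)) * h7

theorem rho7_C (a : ℤ) : rho7 (Cub.C a) = (a : ZMod 7) := by
  simp [rho7]

theorem nm_rho7 (x : K7) : ((Cub.nm x : ℤ) : ZMod 7) = rho7 x ^ 3 := by
  rw [← rho7_C, ← Cub.nm_spec, map_mul, map_mul, rho7_sig, rho7_sig, rho7_sig]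
  ring

/-- `1 - ζ` -/
def lam : S7 := ⟨1, -1⟩

theorem lam_seven : lam * (conj lam * Zt.C (Cub.sig (2 - eta) * Cub.sig (Cub.sig (2 - eta)))) =
    7 := by decide

theorem decomp (z : S7) : ∃ (n : ℤ) (t : S7), z = Zt.C (Cub.C n) + lam * t ∧
    (n : ZMod 7) = Zt.red1 rho7 rho7_eta z := by
  refine ⟨(z.re + z.im).x0 + 2 * (z.re + z.im).x1 + 4 * (z.re + z.im).x2,
    -Zt.C z.im - conj lam * Zt.C (Cub.C (z.re + z.im).x1 + Cub.C (z.re + z.im).x2 * (eta + 2)),
    ?_, ?_⟩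
  · ext <;> simp [lam] <;> ring
  · simp [rho7]
    ring

theorem dvd_of_red {z : S7} (h : Zt.red1 rho7 rho7_eta z = 0) : ∃ t, z = lam * t := by
  obtain ⟨n, t, h1, h2⟩ := decomp z
  rw [h] at h2
  obtain ⟨k, hk⟩ := (ZMod.intCast_zmod_eq_zero_iff_dvd n 7).1 h2
  refine ⟨(conj lam * Zt.C (Cub.sig (2 - eta) * Cub.sig (Cub.sig (2 - eta)))) *
    Zt.C (Cub.C k) + t, ?_⟩
  rw [h1, mul_add, ← mul_assoc, lam_seven, hk]
  congr 1
  ext <;> simp

theorem inv_of_red {z : S7} (h : Zt.red1 rho7 rho7_eta z ≠ 0) : ∃ c c', c * z + c' * lam = 1 := by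
  obtain ⟨n, t, h1, h2⟩ := decomp z
  have h3 : IsCoprime n 7 := by
    rw [← h2] at h
    have h4 : ¬ (7 : ℤ) ∣ n := fun h5 => h ((ZMod.intCast_zmod_eq_zero_iff_dvd n 7).2 h5)
    have h5 : Prime (7 : ℤ) := Int.prime_iff_natAbs_prime.2 (by norm_num)
    exact (h5.coprime_iff_not_dvd.2 h4).symm
  obtain ⟨k, l, hkl⟩ := h3
  refine ⟨Zt.C (Cub.C k), Zt.C (Cub.C l) * (conj lam * Zt.C (Cub.sig (2 - eta) *
    Cub.sig (Cub.sig (2 - eta)))) - Zt.C (Cub.C k) * t, ?_⟩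
  have h6 : (Zt.C (Cub.C k) * Zt.C (Cub.C n) + Zt.C (Cub.C l) * 7 : S7) = 1 := by
    have h7 : (7 : S7) = Zt.C (Cub.C 7) := by decide
    rw [h7, ← map_mul, ← map_mul, ← map_mul, ← map_mul, ← map_add, ← map_add, hkl, map_one,
      map_one]
  rw [← h6, ← lam_seven, h1]
  ring

theorem isUnit_C {v : K7} (h : Cub.nm v = 1) : IsUnit (Zt.C v : S7) := by
  refine IsUnit.of_mul_eq_one (Zt.C (Cub.sig v * Cub.sig (Cub.sig v))) ?_
  rw [← map_mul, ← mul_assoc, Cub.nm_spec, h, map_one, map_one]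

theorem key7 (w : S7) (hw : w ≠ 0) (hl : ¬ ∃ v, w = lam * v)
    (hg : ∃ (g : Matrix (Fin 2) (Fin 2) (Dbl S7 true)) (e : S7), IsUnit e ∧ Dt g = w * e) :
    IsUnit w ∨ ∃ η : S7, η ≠ 0 ∧ ∀ α, ∃ q,
      nn ((α - q * w) * conj (α - q * w) + η * conj η) < nn w * nn w := by
  obtain ⟨g, e, he, hge⟩ := hg
  obtain ⟨v, hv, hTN⟩ := Dt_TN g
  obtain ⟨e', hee⟩ := he.exists_right_inv
  have hwv : w = Zt.C v * e' := by
    rw [← hv, hge, mul_assoc, hee, mul_one]
  have hne : nn e' = 1 := by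
    have h4 : nn e' * nn e = 1 := by
      rw [← nn_mul, mul_comm, hee]; decide
    rcases Int.isUnit_iff.1 (IsUnit.of_mul_eq_one _ h4) with h | h
    · exact h
    · have := nn_nonneg e'
      linarith
  have hnw : nn w = Cub.nm v * Cub.nm v := by
    rw [hwv, nn_mul, hne, nn_C, mul_one]
  have hN0 := hTN.nm_nonneg
  have hN1 : 0 < Cub.nm v := by
    refine lt_of_le_of_ne hN0 (fun h => ?_)
    apply hw
    apply nn_eq_zero.1
    rw [hnw, ← h, mul_zero]
  have hue' : IsUnit e' := IsUnit.of_mul_eq_one e (by rw [mul_comm]; exact hee)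
  by_cases hev : (2 : ℤ) ∣ Cub.nm v
  · obtain ⟨v1, hv1⟩ := even_of_nm v hev
    have h2 : Cub.nm (2 : K7) = 8 := by decide
    have h3 : Cub.nm v = 8 * Cub.nm v1 := by rw [hv1, Cub.nm_mul, h2]
    by_cases h4 : Cub.nm v1 = 1
    · right
      obtain ⟨f, hf⟩ := (isUnit_C h4).exists_right_inv
      refine two7 w (Zt.C v1 * e') (e * f) ?_ ?_
      · calc Zt.C v1 * e' * (e * f) = (Zt.C v1 * f) * (e * e') := by ring
          _ = 1 := by rw [hf, hee, mul_one]
      · rw [hwv, hv1, map_mul, mul_assoc]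
        have h5 : (Zt.C (2 : K7) : S7) = 2 := by decide
        rw [h5]
    · right
      apply large7
      rw [hnw]
      have h5 : 2 ≤ Cub.nm v1 := by omega
      nlinarith
  · by_cases h13 : 13 ≤ Cub.nm v
    · right
      apply large7
      rw [hnw]
      nlinarith
    · have h7 := nm_rho7 v
      by_cases hr : rho7 v = 0
      · exfalso
        apply hl
        apply dvd_of_red
        rw [hwv, map_mul]
        have : Zt.red1 rho7 rho7_eta (Zt.C v) = rho7 v := by simp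
        rw [this, hr, zero_mul]
      · have h8' : ∀ r : ZMod 7, r ≠ 0 → r ^ 3 = 1 ∨ r ^ 3 = 6 := by decide
        have h8 := h8' _ hr
        have h9 : Cub.nm v % 7 = 1 ∨ Cub.nm v % 7 = 6 := by
          rcases h8 with h8 | h8
          · left
            rw [h8] at h7
            have : ((Cub.nm v : ℤ) : ZMod 7) = ((1 : ℤ) : ZMod 7) := by rw [h7]; rfl
            have h10 := (ZMod.intCast_eq_intCast_iff' _ _ 7).1 this
            exact h10
          · right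
            rw [h8] at h7
            have : ((Cub.nm v : ℤ) : ZMod 7) = ((6 : ℤ) : ZMod 7) := by rw [h7]; rfl
            have h10 := (ZMod.intCast_eq_intCast_iff' _ _ 7).1 this
            exact h10
        left
        have h10 : Cub.nm v = 1 := by omega
        rw [hwv]
        exact (isUnit_C h10).mul hue'

/-- arithmetic data -/
def data7 : QuatData2 S7 where
  N x := (nn x).natAbs
  mul x y := by rw [nn_mul, Int.natAbs_mul]
  zero x := by rw [Int.natAbs_eq_zero, nn_eq_zero]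
  conj' x := by rw [nn_conj]
  euclid α n hn := by
    obtain ⟨q, hq⟩ := euclid7 α n hn
    refine ⟨q, ?_⟩
    have h1 := nn_nonneg (α - q * n)
    omega
  nz := nrd_zero
  lam := lam
  lam_conj := ⟨⟨-eta, 1⟩, by decide⟩
  lam_N := by decide
  lam_inv s := by
    apply inv_of_red
    rw [map_add, map_mul, map_one, Zt.red1_conj]
    generalize Zt.red1 rho7 rho7_eta s = r
    revert r
    decide
  key w hw hl hg := by
    rcases key7 w hw hl hg with h | ⟨η, h1, h2⟩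
    · exact Or.inl h
    · refine Or.inr ⟨η, h1, fun α => ?_⟩
      obtain ⟨q, h3⟩ := h2 α
      refine ⟨q, ?_⟩
      rw [← Int.natAbs_mul]
      have h4 := nn_nonneg ((α - q * w) * conj (α - q * w) + η * conj η)
      omega

/-- transitivity for `ℤ[ζ_7, j]` -/
theorem TR_S7 : TR (Dbl S7 true) := data7.TR

end Vale.Agent.P246.Cyc
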